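import Claimed.Agent.R323.Nu.Birad
import Claimed.Agent.Lib.Gmt.IF
import Claimed.Agent.Lib.Gmt.GgMeas

/-!
# Row 323 (S0580), block N (architect helper59), file 4: the perimeter of the quadratic cones `{β|x'|² < α|x''|²}` in the unit ball.

RESULT `nu_cone_area`:  `(n-1) μ_S(B_1) = aω_a · bω_b · √(α^(a-1) β^(b-1) / (α+β)^(n-2))`,  `S = nuCone p α β`, `a + b = n`.
ROUTE.  `φ = β|x'|² - α|x''|²` is a smooth defining function of `S` without critical points on `{0}ᶜ`: `gmt_reg_mu` gives `ν = ∇φ/|∇φ|`, `μ_S` lives on `{φ = 0}` (`nu_reg_global`).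
Gauss-Green with `X = Ψ(|x|²)(x',0)`, `Ψ ∈ C_c^∞(0,∞)`: on `{φ = 0}`: `⟨X,ν⟩ = Ψ(|x|²)|x| √(αβ)/(α+β)` (`nu_gg`); the volume integral is `nu_lhs` (bi-radial Fubini).
So the image of `|x| μ_S` under `x ↦ |x|` is `K t^(n-1) dt`: `nu_extract` gives `μ_S(B_1 \ 0)`; the vertex carries no perimeter (`nu_remove_point`).
LEAVES: `L-NU-C nu_reg_global`, `L-NU-D nu_remove_point`, `L-NU-E nuX_div + nuX_test`, `L-NU-F nu_gg`, `L-NU-H nu_extract`, `L-NU-K nu_const`.   Prove IN PLACE, auxiliary lemmas directly above your theorem, prefix `nu_`.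
-/

set_option autoImplicit false
open scoped ContDiff ENNReal RealInnerProductSpace
open MeasureTheory Metric Set Real

namespace Claimed.Agent.R323

open Claimed.Agent.Gmt

variable {n : ℕ}

/-! ### general facts on perimeters -/

/-- **L-NU-C** (globalisation of `gmt_reg_mu`).  For `x ∈ U` take `r` with `ball x r ⊆ U`; `gmtLF_iff_local` (`GmtLF S (ball x r)` at `W = ball x (r/2)`); countable subcover (`TopologicalSpace.isOpen_biUnion_countable`),
`ae_restrict_biUnion_iff`, `measure_biUnion_null_iff`. -/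
theorem nu_reg_global {U : Set (E n)} (hU : IsOpen U) {φ : E n → ℝ} (hφ : ContDiffOn ℝ ∞ φ U)
    (hφ' : ∀ y ∈ U, fderiv ℝ φ y ≠ 0) {S : Set (E n)} (hS : MeasurableSet S)
    (hSφ : ∀ y ∈ U, y ∈ S ↔ φ y < 0) :
    GmtLF S U ∧ gmtMu S (U \ {y | φ y = 0}) = 0 ∧
      ∀ᵐ y ∂((gmtMu S).restrict U), gmtNu S y = ‖gradient φ y‖⁻¹ • gradient φ y := by

  classical
  have hr : ∀ x ∈ U, ∃ r > 0, ball x r ⊆ U := fun x hx => Metric.isOpen_iff.1 hU x hx
  choose! r hr0 hrU using hr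
  have key : ∀ x ∈ U, GmtLF S (ball x (r x)) ∧ gmtMu S (ball x (r x) \ {y | φ y = 0}) = 0 ∧
      ∀ᵐ y ∂((gmtMu S).restrict (ball x (r x))), gmtNu S y = ‖gradient φ y‖⁻¹ • gradient φ y := by
    intro x hx
    have hset : (S ∩ ball x (r x) : Set (E n)) = {y | y ∈ ball x (r x) ∧ φ y < 0} := by
      ext y
      constructor
      · rintro ⟨h1, h2⟩
        exact ⟨h2, (hSφ y (hrU x hx h2)).1 h1⟩
      · rintro ⟨h1, h2⟩
        exact ⟨(hSφ y (hrU x hx h1)).2 h2, h1⟩
    have h := gmt_reg_mu x (r x) (hr0 x hx) φ (hφ.mono (hrU x hx)) (fun y hy => hφ' y (hrU x hx hy)) hS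
      (by rw [hset]; exact Filter.EventuallyEq.rfl)
    exact ⟨h.1, h.2.1, h.2.2.1⟩
  obtain ⟨T, hTU, hTc, hTcov⟩ := TopologicalSpace.isOpen_biUnion_countable U (fun x => ball x (r x))
    (fun x _ => isOpen_ball)
  have hcov : ⋃ x ∈ T, ball x (r x) = U := by
    rw [hTcov]
    apply Subset.antisymm
    · exact iUnion₂_subset fun x hx => hrU x hx
    · intro x hx
      exact mem_biUnion hx (mem_ball_self (hr0 x hx))
  refine ⟨?_, ?_, ?_⟩
  · rw [gmtLF_iff_local hU hS]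
    intro x hx
    refine ⟨r x / 2, half_pos (hr0 x hx), (key x hx).1.2 _ ⟨isOpen_ball, ?_, ?_⟩⟩
    · exact (isCompact_closedBall x (r x / 2)).of_isClosed_subset isClosed_closure
        closure_ball_subset_closedBall
    · exact closure_ball_subset_closedBall.trans (closedBall_subset_ball (half_lt_self (hr0 x hx)))
  · rw [← hcov]
    simp only [iUnion_diff]
    exact (measure_biUnion_null_iff hTc).2 fun x hx => (key x (hTU hx)).2.1
  · rw [← hcov]
    exact (ae_restrict_biUnion_iff _ hTc _).2 fun x hx => (key x (hTU hx)).2.2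

/-- **L-NU-D** (a point is removable, `n ≥ 2`).  `T` a test field in `W`, `|T| ≤ 1`.  `χ_k x = Real.smoothTransition (k² |x - x₀|² - 1)`: `= 0` on `ball x₀ (1/k)`, `= 1` off `ball x₀ (√2/k)`, `|∇χ_k| ≤ C k`.
`χ_k T` is a test field in `W \ {x₀}`, admissible; `|∫_S div T - ∫_S div (χ_k T)| ≤ (sup |div T| + C k) ω_n (√2/k)^n → 0`. -/
theorem nu_remove_point (hn : 2 ≤ n) {S : Set (E n)} (hS : MeasurableSet S) {W : Set (E n)}
    (hW : IsOpen W) (x₀ : E n) : gmtP S W ≤ gmtP S (W \ {x₀}) := by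

  obtain ⟨q, rfl⟩ : ∃ q, n = q + 2 := ⟨n - 2, by omega⟩
  obtain ⟨η, h1, h2, h3, h4, h5⟩ := gmt_exists_cutoff (isCompact_closedBall (0 : E (q + 2)) 1)
    (isOpen_ball (x := (0 : E (q + 2))) (ε := 2)) (closedBall_subset_ball (by norm_num))
  have hη1 : ContDiff ℝ 1 η := h1.of_le (by exact_mod_cast le_top)
  obtain ⟨M, hM⟩ := (hη1.continuous_fderiv one_ne_zero).bounded_above_of_compact_support (h2.fderiv ℝ)
  have hM0 : 0 ≤ M := (norm_nonneg _).trans (hM 0)
  have hle : ∀ T' : E (q + 2) → E (q + 2), GmtTest (W \ {x₀}) T' → (∀ x, ‖T' x‖ ≤ 1) →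
      ENNReal.ofReal (∫ x in S, gmtDiv T' x) ≤ gmtP S (W \ {x₀}) := by
    intro T' h h'
    unfold gmtP gmtPer
    exact le_iSup_of_le T' (le_iSup_of_le h (le_iSup_of_le ((gmtAdm_eu_iff T').2 h') le_rfl))
  refine (le_of_eq (show gmtP S W = gmtPer (fun _ => gmtEu _) S W from rfl)).trans ?_
  unfold gmtPer
  refine iSup_le fun T => iSup_le fun hT => iSup_le fun hA => ?_
  have hT1 : ∀ x, ‖T x‖ ≤ 1 := (gmtAdm_eu_iff T).1 hA
  obtain ⟨D, hD⟩ := (continuous_gmtDiv hT).1.bounded_above_of_compact_support (continuous_gmtDiv hT).2.1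
  have hD0 : 0 ≤ D := (norm_nonneg _).trans (hD 0)
  have hc : ∀ k : ℕ, (1 : ℝ) ≤ (k : ℝ) + 1 := fun k => by
    have : (0 : ℝ) ≤ k := Nat.cast_nonneg k
    linarith
  have hc0 : ∀ k : ℕ, (0 : ℝ) < (k : ℝ) + 1 := fun k => lt_of_lt_of_le one_pos (hc k)
  -- the dilated cut-off
  have hder : ∀ (k : ℕ) (x : E (q + 2)), HasFDerivAt (fun x => η (((k : ℝ) + 1) • (x - x₀)))
      ((fderiv ℝ η (((k : ℝ) + 1) • (x - x₀))).comp (((k : ℝ) + 1) • ContinuousLinearMap.id ℝ (E (q + 2)))) x :=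
    fun k x => ((hη1.differentiable (by norm_num)) _).hasFDerivAt.comp x
      (((hasFDerivAt_id x).sub_const x₀).const_smul ((k : ℝ) + 1))
  have hηk1 : ∀ k : ℕ, ContDiff ℝ 1 (fun x => η (((k : ℝ) + 1) • (x - x₀))) := fun k =>
    hη1.comp ((contDiff_id.sub contDiff_const).const_smul ((k : ℝ) + 1))
  have hout : ∀ (k : ℕ) (x : E (q + 2)), x ∉ ball x₀ (2 / ((k : ℝ) + 1)) →
      ((k : ℝ) + 1) • (x - x₀) ∉ tsupport η := by
    intro k x hx h
    apply hx
    have h6 := h3 h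
    rw [mem_ball_zero_iff, norm_smul, Real.norm_eq_abs, abs_of_pos (hc0 k)] at h6
    rw [mem_ball, dist_eq_norm, lt_div_iff₀ (hc0 k)]
    linarith
  have hnear : ∀ k : ℕ, ∀ᶠ x in nhds x₀, η (((k : ℝ) + 1) • (x - x₀)) = 1 := by
    intro k
    have h6 : ∀ᶠ y in nhds (0 : E (q + 2)), η y = 1 :=
      h5.filter_mono (nhds_le_nhdsSet (mem_closedBall_self zero_le_one))
    have h7 : Filter.Tendsto (fun x : E (q + 2) => ((k : ℝ) + 1) • (x - x₀)) (nhds x₀) (nhds 0) := by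
      have : Continuous fun x : E (q + 2) => ((k : ℝ) + 1) • (x - x₀) := by fun_prop
      have h8 := this.tendsto x₀
      simpa using h8
    exact h7.eventually h6
  -- the error field
  have hUk : ∀ k : ℕ, GmtTest W (fun x => η (((k : ℝ) + 1) • (x - x₀)) • T x) := fun k => hT.smul (hηk1 k)
  have hdivU : ∀ (k : ℕ) (x : E (q + 2)), gmtDiv (fun x => η (((k : ℝ) + 1) • (x - x₀)) • T x) x
      = η (((k : ℝ) + 1) • (x - x₀)) * gmtDiv T x
        + fderiv ℝ η (((k : ℝ) + 1) • (x - x₀)) (((k : ℝ) + 1) • T x) := by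
    intro k x
    rw [gmtDiv_smul (hder k x).differentiableAt (hT.differentiable x), (hder k x).fderiv]
    simp
  have hbdU : ∀ (k : ℕ) (x : E (q + 2)), ‖gmtDiv (fun x => η (((k : ℝ) + 1) • (x - x₀)) • T x) x‖
      ≤ D + M * ((k : ℝ) + 1) := by
    intro k x
    rw [hdivU k x]
    refine (norm_add_le _ _).trans (add_le_add ?_ ?_)
    · rw [norm_mul, Real.norm_eq_abs, abs_of_nonneg (h4 _).1]
      calc η (((k : ℝ) + 1) • (x - x₀)) * ‖gmtDiv T x‖ ≤ 1 * D :=
            mul_le_mul (h4 _).2 (hD x) (norm_nonneg _) zero_le_one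
        _ = D := one_mul D
    · refine (ContinuousLinearMap.le_opNorm _ _).trans ?_
      rw [norm_smul, Real.norm_eq_abs, abs_of_pos (hc0 k)]
      calc ‖fderiv ℝ η (((k : ℝ) + 1) • (x - x₀))‖ * (((k : ℝ) + 1) * ‖T x‖)
          ≤ M * (((k : ℝ) + 1) * 1) :=
            mul_le_mul (hM _) (mul_le_mul_of_nonneg_left (hT1 x) (hc0 k).le)
              (mul_nonneg (hc0 k).le (norm_nonneg _)) hM0
        _ = M * ((k : ℝ) + 1) := by ring
  have hzeroU : ∀ (k : ℕ) (x : E (q + 2)), x ∉ ball x₀ (2 / ((k : ℝ) + 1)) →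
      gmtDiv (fun x => η (((k : ℝ) + 1) • (x - x₀)) • T x) x = 0 := by
    intro k x hx
    rw [hdivU k x, image_eq_zero_of_notMem_tsupport (hout k x hx),
      fderiv_of_notMem_tsupport (𝕜 := ℝ) (hout k x hx)]
    simp
  obtain ⟨v, hv⟩ : ∃ v : ℝ, v = (volume (ball (0 : E (q + 2)) 1)).toReal := ⟨_, rfl⟩
  have hv0 : 0 ≤ v := hv ▸ ENNReal.toReal_nonneg
  have hvol : ∀ k : ℕ, volume.real (ball x₀ (2 / ((k : ℝ) + 1))) = (2 / ((k : ℝ) + 1)) ^ (q + 2) * v := by
    intro k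
    have hpos : (0 : ℝ) ≤ 2 / ((k : ℝ) + 1) := (div_pos two_pos (hc0 k)).le
    rw [Measure.real, Measure.addHaar_ball volume x₀ hpos, ENNReal.toReal_mul,
      ENNReal.toReal_ofReal (pow_nonneg hpos _), finrank_euclideanSpace_fin, hv]
  have herr : ∀ k : ℕ, ‖∫ x in S, gmtDiv (fun x => η (((k : ℝ) + 1) • (x - x₀)) • T x) x‖
      ≤ ((D + M) * 2 ^ (q + 2) * v) * (1 / ((k : ℝ) + 1)) := by
    intro k
    have e1 : ∫ x in S, gmtDiv (fun x => η (((k : ℝ) + 1) • (x - x₀)) • T x) x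
        = ∫ x in S ∩ ball x₀ (2 / ((k : ℝ) + 1)), gmtDiv (fun x => η (((k : ℝ) + 1) • (x - x₀)) • T x) x :=
      setIntegral_eq_of_subset_of_forall_diff_eq_zero hS inter_subset_left
        fun x hx => hzeroU k x fun hxb => hx.2 ⟨hx.1, hxb⟩
    rw [e1]
    have hfin : volume (S ∩ ball x₀ (2 / ((k : ℝ) + 1))) < ⊤ :=
      lt_of_le_of_lt (measure_mono inter_subset_right) measure_ball_lt_top
    refine (norm_setIntegral_le_of_norm_le_const hfin fun x _ => hbdU k x).trans ?_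
    have h6 : volume.real (S ∩ ball x₀ (2 / ((k : ℝ) + 1))) ≤ (2 / ((k : ℝ) + 1)) ^ (q + 2) * v := by
      rw [← hvol k]
      exact measureReal_mono inter_subset_right measure_ball_lt_top.ne
    have h7 : D + M * ((k : ℝ) + 1) ≤ (D + M) * ((k : ℝ) + 1) := by nlinarith [hc k]
    have h8 : (2 / ((k : ℝ) + 1)) ^ (q + 2) ≤ 2 ^ (q + 2) * (1 / ((k : ℝ) + 1)) ^ 2 := by
      rw [div_eq_mul_one_div, mul_pow]
      refine mul_le_mul_of_nonneg_left ?_ (by positivity)
      refine pow_le_pow_of_le_one (by positivity) ?_ (by omega)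
      rw [div_le_one (hc0 k)]
      exact hc k
    calc (D + M * ((k : ℝ) + 1)) * volume.real (S ∩ ball x₀ (2 / ((k : ℝ) + 1)))
        ≤ ((D + M) * ((k : ℝ) + 1)) * ((2 ^ (q + 2) * (1 / ((k : ℝ) + 1)) ^ 2) * v) := by
          refine mul_le_mul h7 (h6.trans (mul_le_mul_of_nonneg_right h8 hv0)) measureReal_nonneg ?_
          exact mul_nonneg (add_nonneg hD0 hM0) (hc0 k).le
      _ = ((D + M) * 2 ^ (q + 2) * v) * (1 / ((k : ℝ) + 1)) := by
          have := (hc0 k).ne'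
          field_simp
  have hlimU : Filter.Tendsto (fun k : ℕ => ∫ x in S, gmtDiv (fun x => η (((k : ℝ) + 1) • (x - x₀)) • T x) x)
      Filter.atTop (nhds 0) := by
    refine squeeze_zero_norm herr ?_
    have := (tendsto_one_div_add_atTop_nhds_zero_nat (𝕜 := ℝ)).const_mul ((D + M) * 2 ^ (q + 2) * v)
    simpa using this
  -- the cut field
  have hTk : ∀ k : ℕ, GmtTest (W \ {x₀}) (fun x => (1 - η (((k : ℝ) + 1) • (x - x₀))) • T x) := by
    intro k
    have h6 := GmtTest.smul_on_of_eventually (V := {x₀}ᶜ) hW hT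
      (φ := fun x => 1 - η (((k : ℝ) + 1) • (x - x₀))) (contDiff_const.sub (hηk1 k)).contDiffOn
      (by
        intro x hx
        have hxx : x = x₀ := by
          by_contra hne
          exact hx.2 hne
        rw [hxx]
        filter_upwards [hnear k] with y hy
        rw [hy, sub_self])
    rwa [← diff_eq] at h6
  have hTk1 : ∀ (k : ℕ) (x : E (q + 2)), ‖(1 - η (((k : ℝ) + 1) • (x - x₀))) • T x‖ ≤ 1 := by
    intro k x
    rw [norm_smul, Real.norm_eq_abs, abs_of_nonneg (by linarith [(h4 (((k : ℝ) + 1) • (x - x₀))).2])]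
    calc (1 - η (((k : ℝ) + 1) • (x - x₀))) * ‖T x‖ ≤ 1 * 1 :=
          mul_le_mul (by linarith [(h4 (((k : ℝ) + 1) • (x - x₀))).1]) (hT1 x) (norm_nonneg _) zero_le_one
      _ = 1 := one_mul 1
  have hdivk : ∀ (k : ℕ) (x : E (q + 2)), gmtDiv (fun x => (1 - η (((k : ℝ) + 1) • (x - x₀))) • T x) x
      = gmtDiv T x - gmtDiv (fun x => η (((k : ℝ) + 1) • (x - x₀)) • T x) x := by
    intro k x
    have e : (fun x => (1 - η (((k : ℝ) + 1) • (x - x₀))) • T x)
        = fun x => T x + -(η (((k : ℝ) + 1) • (x - x₀)) • T x) := by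
      funext y
      rw [sub_smul, one_smul, sub_eq_add_neg]
    rw [e, gmtDiv_add (hT.differentiable x) ((hUk k).neg.differentiable x), gmtDiv_neg, sub_eq_add_neg]
  have hintk : ∀ k : ℕ, ∫ x in S, gmtDiv (fun x => (1 - η (((k : ℝ) + 1) • (x - x₀))) • T x) x
      = (∫ x in S, gmtDiv T x) - ∫ x in S, gmtDiv (fun x => η (((k : ℝ) + 1) • (x - x₀)) • T x) x := by
    intro k
    simp only [hdivk k]
    exact integral_sub (gmtDiv_integrable hT).integrableOn (gmtDiv_integrable (hUk k)).integrableOn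
  have hlim : Filter.Tendsto (fun k : ℕ => ∫ x in S, gmtDiv (fun x => (1 - η (((k : ℝ) + 1) • (x - x₀))) • T x) x)
      Filter.atTop (nhds (∫ x in S, gmtDiv T x)) := by
    simp only [hintk]
    simpa using (tendsto_const_nhds (x := ∫ x in S, gmtDiv T x)).sub hlimU
  exact le_of_tendsto' (ENNReal.tendsto_ofReal hlim) fun k => hle _ (hTk k) (hTk1 k)

theorem nu_cutoff : ∃ θ : ℕ → ℝ → ℝ, (∀ k, ContDiff ℝ ∞ (θ k)) ∧ (∀ k u, 0 ≤ θ k u) ∧
    (∀ k u, θ k u ≤ 1) ∧ (∀ (k : ℕ) (u : ℝ), u ≤ 1 / ((k : ℝ) + 1) → θ k u = 0) ∧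
    (∀ (k : ℕ) (u : ℝ), 1 - 1 / ((k : ℝ) + 1) ≤ u → θ k u = 0) ∧ (∀ u, Monotone fun k => θ k u) ∧
    (∀ u, 0 < u → u < 1 → ∀ᶠ k in Filter.atTop, θ k u = 1) := by
  have hc : ∀ k : ℕ, (0 : ℝ) < (k : ℝ) + 1 := fun k => by positivity
  have hl : ∀ (k : ℕ) (u : ℝ), u ≤ 1 / ((k : ℝ) + 1) →
      Real.smoothTransition (((k : ℝ) + 1) * u - 1) = 0 := by
    intro k u hu
    apply Real.smoothTransition.zero_of_nonpos
    rw [le_div_iff₀ (hc k)] at hu
    linarith
  refine ⟨fun k u => Real.smoothTransition (((k : ℝ) + 1) * u - 1) *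
    Real.smoothTransition (((k : ℝ) + 1) * (1 - u) - 1), ?_, ?_, ?_, ?_, ?_, ?_, ?_⟩
  · intro k
    exact (Real.smoothTransition.contDiff.comp (by fun_prop)).mul
      (Real.smoothTransition.contDiff.comp (by fun_prop))
  · intro k u
    exact mul_nonneg (Real.smoothTransition.nonneg _) (Real.smoothTransition.nonneg _)
  · intro k u
    exact mul_le_one₀ (Real.smoothTransition.le_one _) (Real.smoothTransition.nonneg _)
      (Real.smoothTransition.le_one _)
  · intro k u hu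
    simp only [hl k u hu, zero_mul]
  · intro k u hu
    simp only [hl k (1 - u) (by linarith), mul_zero]
  · intro u i j hij
    have hij' : (i : ℝ) ≤ j := by exact_mod_cast hij
    rcases le_or_gt u 0 with hu | hu
    · have h1 := hl i u (hu.trans (by have := hc i; positivity))
      have h2 := hl j u (hu.trans (by have := hc j; positivity))
      simp only [h1, h2, zero_mul, le_refl]
    rcases le_or_gt 1 u with hu1 | hu1
    · have h1 := hl i (1 - u) ((sub_nonpos.2 hu1).trans (by have := hc i; positivity))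
      have h2 := hl j (1 - u) ((sub_nonpos.2 hu1).trans (by have := hc j; positivity))
      simp only [h1, h2, mul_zero, le_refl]
    · refine mul_le_mul (Real.smoothTransition.monotone ?_) (Real.smoothTransition.monotone ?_)
        (Real.smoothTransition.nonneg _) (Real.smoothTransition.nonneg _)
      · nlinarith
      · nlinarith
  · intro u hu hu1
    have h1 := tendsto_natCast_atTop_atTop.eventually_ge_atTop (2 / u)
    have h2 := tendsto_natCast_atTop_atTop.eventually_ge_atTop (2 / (1 - u))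
    filter_upwards [h1, h2] with k hk1 hk2
    rw [div_le_iff₀ hu] at hk1
    rw [div_le_iff₀ (by linarith)] at hk2
    rw [Real.smoothTransition.one_of_one_le (by nlinarith),
      Real.smoothTransition.one_of_one_le (by nlinarith), one_mul]

/-- **L-NU-H** (extraction).  `θ_k u = smoothTransition (k u - 1) * smoothTransition (k (1 - u) - 1)` is smooth, monotone in `k`, supported in `[1/k, 1 - 1/k]`, `↑ 1_{(0,1)}`.  Apply `H` to `Ψ_k u = θ_k u / √u`:
`∫ θ_k(|x|²) dμ = K ∫_0^∞ θ_k(t²) t^q dt`.  Monotone convergence on both sides (`lintegral_tendsto_of_tendsto_of_monotone` for `μ`: finiteness of `μ (ball 0 1 \ {0})` is NOT known a priori). -/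
theorem nu_extract {μ : Measure (E n)} (hfin : ∀ K : Set (E n), IsCompact K → (0 : E n) ∉ K → μ K ≠ ⊤)
    {K : ℝ} (hK : 0 ≤ K) {q : ℕ}
    (H : ∀ Ψ : ℝ → ℝ, ContDiff ℝ ∞ Ψ → HasCompactSupport Ψ → tsupport Ψ ⊆ Ioi 0 →
      ∫ x, Ψ (‖x‖ ^ 2) * ‖x‖ ∂μ = K * ∫ t in Ioi (0 : ℝ), Ψ (t ^ 2) * t ^ (q + 1)) :
    μ (ball 0 1 \ {0}) = ENNReal.ofReal (K / ((q : ℝ) + 1)) := by
  obtain ⟨θ, hθs, hθ0, hθ1, hθl, hθr, hθm, hθe⟩ := nu_cutoff
  have hc0 : ∀ k : ℕ, (0 : ℝ) < 1 / ((k : ℝ) + 1) := fun k => by positivity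
  -- the test functions
  have hΨs : ∀ k, ContDiff ℝ ∞ (fun u => θ k u / √u) := by
    intro k
    rw [contDiff_iff_contDiffAt]
    intro u
    rcases le_or_gt u 0 with hu | hu
    · have : (fun u => θ k u / √u) =ᶠ[nhds u] fun _ => 0 := by
        filter_upwards [Iio_mem_nhds (lt_of_le_of_lt hu (hc0 k))] with v hv
        rw [hθl k v (le_of_lt hv), zero_div]
      exact contDiffAt_const.congr_of_eventuallyEq this
    · exact (hθs k).contDiffAt.div (Real.contDiffAt_sqrt hu.ne') (Real.sqrt_pos.2 hu).ne'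
  have hΨsupp : ∀ k, tsupport (fun u => θ k u / √u) ⊆ Icc (1 / ((k : ℝ) + 1)) 1 := by
    intro k
    refine closure_minimal ?_ isClosed_Icc
    intro u hu
    rw [Function.mem_support] at hu
    constructor
    · by_contra h
      exact hu (by rw [hθl k u (le_of_lt (not_le.1 h)), zero_div])
    · by_contra h
      exact hu (by rw [hθr k u (by linarith [hc0 k, not_le.1 h]), zero_div])
  have hH : ∀ k, ∫ x, θ k (‖x‖ ^ 2) ∂μ = K * ∫ t in Ioo (0 : ℝ) 1, θ k (t ^ 2) * t ^ q := by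
    intro k
    have h := H _ (hΨs k) (isCompact_Icc.of_isClosed_subset (isClosed_tsupport _) (hΨsupp k))
      ((hΨsupp k).trans fun u hu => lt_of_lt_of_le (hc0 k) hu.1)
    have e1 : (fun x : E n => θ k (‖x‖ ^ 2) / √(‖x‖ ^ 2) * ‖x‖) = fun x => θ k (‖x‖ ^ 2) := by
      funext x
      rw [Real.sqrt_sq (norm_nonneg x)]
      by_cases hx : ‖x‖ = 0
      · rw [hx, hθl k _ (by rw [zero_pow two_ne_zero]; exact (hc0 k).le)]
        simp
      · field_simp
    have e2 : ∫ t in Ioi (0 : ℝ), θ k (t ^ 2) / √(t ^ 2) * t ^ (q + 1)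
        = ∫ t in Ioi (0 : ℝ), θ k (t ^ 2) * t ^ q := by
      refine setIntegral_congr_fun measurableSet_Ioi fun t ht => ?_
      have ht' : (0 : ℝ) < t := ht
      rw [Real.sqrt_sq ht'.le, pow_succ]
      field_simp
      ring
    have e3 : ∫ t in Ioi (0 : ℝ), θ k (t ^ 2) * t ^ q = ∫ t in Ioo (0 : ℝ) 1, θ k (t ^ 2) * t ^ q := by
      refine setIntegral_eq_of_subset_of_forall_sdiff_eq_zero measurableSet_Ioi Ioo_subset_Ioi_self ?_
      intro t ht
      have h1 : (0 : ℝ) < t := ht.1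
      have h2 : 1 ≤ t := by
        by_contra h3
        exact ht.2 ⟨h1, not_le.1 h3⟩
      rw [hθr k _ (by nlinarith [hc0 k]), zero_mul]
    rw [e1, e2, e3] at h
    exact h
  -- integrability
  have hcont : ∀ k, Continuous fun x : E n => θ k (‖x‖ ^ 2) := fun k =>
    (hθs k).continuous.comp (by fun_prop)
  have hint : ∀ k, Integrable (fun x : E n => θ k (‖x‖ ^ 2)) μ := by
    intro k
    have hA : IsCompact (closedBall (0 : E n) 1 ∩ {x | 1 / ((k : ℝ) + 1) ≤ ‖x‖ ^ 2}) :=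
      (isCompact_closedBall 0 1).inter_right (isClosed_le continuous_const (by fun_prop))
    have hA0 : (0 : E n) ∉ closedBall (0 : E n) 1 ∩ {x | 1 / ((k : ℝ) + 1) ≤ ‖x‖ ^ 2} := by
      rintro ⟨-, h⟩
      have h' : 1 / ((k : ℝ) + 1) ≤ ‖(0 : E n)‖ ^ 2 := h
      rw [norm_zero] at h'
      have := hc0 k
      norm_num at h'
      linarith
    rw [← integrableOn_iff_integrable_of_support_subset
      (s := closedBall (0 : E n) 1 ∩ {x | 1 / ((k : ℝ) + 1) ≤ ‖x‖ ^ 2})]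
    · refine Measure.integrableOn_of_bounded (M := 1) (hfin _ hA hA0) (hcont k).aestronglyMeasurable ?_
      refine Filter.Eventually.of_forall fun x => ?_
      rw [Real.norm_eq_abs, abs_of_nonneg (hθ0 k _)]
      exact hθ1 k _
    · intro x hx
      rw [Function.mem_support] at hx
      constructor
      · rw [mem_closedBall_zero_iff]
        by_contra h
        have h1 : 1 < ‖x‖ := not_le.1 h
        exact hx (hθr k _ (by nlinarith [hc0 k]))
      · by_contra h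
        exact hx (hθl k _ (le_of_lt (not_le.1 h)))
  -- the two limits
  have hL : Filter.Tendsto (fun k => ∫⁻ x, ENNReal.ofReal (θ k (‖x‖ ^ 2)) ∂μ) Filter.atTop
      (nhds (μ (ball 0 1 \ {0}))) := by
    rw [← lintegral_indicator_one (measurableSet_ball.diff (measurableSet_singleton (0 : E n)))]
    refine lintegral_tendsto_of_tendsto_of_monotone
      (fun k => (ENNReal.measurable_ofReal.comp (hcont k).measurable).aemeasurable)
      (Filter.Eventually.of_forall fun x i j hij => ENNReal.ofReal_le_ofReal (hθm _ hij))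
      (Filter.Eventually.of_forall fun x => ?_)
    by_cases hx : x ∈ ball (0 : E n) 1 \ {0}
    · rw [indicator_of_mem hx]
      have h1 : ‖x‖ < 1 := mem_ball_zero_iff.1 hx.1
      have h0 : 0 < ‖x‖ := norm_pos_iff.2 hx.2
      refine tendsto_const_nhds.congr' ?_
      filter_upwards [hθe (‖x‖ ^ 2) (by positivity) (by nlinarith)] with k hk
      rw [hk]
      simp
    · rw [indicator_of_notMem hx]
      refine tendsto_const_nhds.congr' (Filter.Eventually.of_forall fun k => ?_)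
      show (0 : ℝ≥0∞) = ENNReal.ofReal (θ k (‖x‖ ^ 2))
      by_cases h0 : x = 0
      · rw [h0, norm_zero, hθl k (0 ^ 2) (by rw [zero_pow two_ne_zero]; exact (hc0 k).le)]
        simp
      · have h1 : 1 ≤ ‖x‖ := by
          by_contra h
          exact hx ⟨mem_ball_zero_iff.2 (not_le.1 h), h0⟩
        rw [hθr k (‖x‖ ^ 2) (by nlinarith [hc0 k])]
        simp
  have hR : Filter.Tendsto (fun k => ∫ t in Ioo (0 : ℝ) 1, θ k (t ^ 2) * t ^ q) Filter.atTop
      (nhds (∫ t in Ioo (0 : ℝ) 1, t ^ q)) := by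
    refine tendsto_integral_of_dominated_convergence (fun _ => (1 : ℝ))
      (fun k => (((hθs k).continuous.comp (by fun_prop)).mul (by fun_prop)).aestronglyMeasurable)
      (integrable_const _) ?_ ?_
    · intro k
      filter_upwards [ae_restrict_mem measurableSet_Ioo] with t ht
      rw [norm_mul, Real.norm_eq_abs, abs_of_nonneg (hθ0 k _), norm_pow, Real.norm_eq_abs,
        abs_of_pos ht.1]
      exact mul_le_one₀ (hθ1 k _) (pow_nonneg ht.1.le _) (pow_le_one₀ ht.1.le ht.2.le)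
    · filter_upwards [ae_restrict_mem measurableSet_Ioo] with t ht
      refine tendsto_const_nhds.congr' ?_
      filter_upwards [hθe (t ^ 2) (pow_pos ht.1 2) (by nlinarith [ht.1, ht.2])] with k hk
      rw [hk, one_mul]
  have hval : ∫ t in Ioo (0 : ℝ) 1, t ^ q = 1 / ((q : ℝ) + 1) := by
    rw [← integral_Ioc_eq_integral_Ioo, ← intervalIntegral.integral_of_le zero_le_one, integral_pow]
    simp
  have hL' : Filter.Tendsto (fun k => ∫⁻ x, ENNReal.ofReal (θ k (‖x‖ ^ 2)) ∂μ) Filter.atTop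
      (nhds (ENNReal.ofReal (K / ((q : ℝ) + 1)))) := by
    have h1 : ∀ k, ∫⁻ x, ENNReal.ofReal (θ k (‖x‖ ^ 2)) ∂μ
        = ENNReal.ofReal (K * ∫ t in Ioo (0 : ℝ) 1, θ k (t ^ 2) * t ^ q) := by
      intro k
      rw [← hH k, ofReal_integral_eq_lintegral_ofReal (hint k)
        (Filter.Eventually.of_forall fun x => hθ0 k _)]
    simp only [h1]
    have h2 := ENNReal.tendsto_ofReal (hR.const_mul K)
    rw [hval, mul_one_div] at h2
    exact h2
  exact tendsto_nhds_unique hL hL'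

/-! ### the cone and the field -/

/-- the cone `{β |x'|² < α |x''|²}`. -/
def nuCone (p : Fin n → Prop) [DecidablePred p] (α β : ℝ) : Set (E n) :=
  {x | β * nuQ p x < α * nuQ (fun i => ¬ p i) x}

/-- the projection `x ↦ (x',0)`. -/
noncomputable def nuPr (p : Fin n → Prop) [DecidablePred p] : E n →L[ℝ] E n :=
  ∑ i with p i, (EuclideanSpace.proj i : E n →L[ℝ] ℝ).smulRight (eb i)

/-- the field `Ψ(|x|²)(x',0)`. -/
noncomputable def nuX (p : Fin n → Prop) [DecidablePred p] (Ψ : ℝ → ℝ) (x : E n) : E n :=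
  Ψ (‖x‖ ^ 2) • nuPr p x

theorem nuCone_isOpen (p : Fin n → Prop) [DecidablePred p] (α β : ℝ) : IsOpen (nuCone p α β) :=
  isOpen_lt (continuous_const.mul (nuQ_continuous p)) (continuous_const.mul (nuQ_continuous _))

/-- coordinates of the projection. -/
theorem nu_pr_apply (p : Fin n → Prop) [DecidablePred p] (y : E n) (j : Fin n) :
    nuPr p y j = if p j then y j else 0 := by
  unfold nuPr
  rw [sum_apply, WithLp.ofLp_sum, Finset.sum_apply, Finset.sum_filter, Finset.sum_eq_single j]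
  · split_ifs <;> simp
  · intro i _ hij
    split_ifs
    · simp [hij.symm]
    · rfl
  · intro h
    exact absurd (Finset.mem_univ _) h

/-- `⟪(x',0), v⟫ = ∑_{p i} x_i v_i`. -/
theorem nu_pr_inner (p : Fin n → Prop) [DecidablePred p] (x v : E n) :
    ⟪nuPr p x, v⟫ = ∑ i with p i, x i * v i := by
  rw [PiLp.inner_apply, Finset.sum_filter]
  refine Finset.sum_congr rfl fun i _ => ?_
  rw [nu_pr_apply]
  split_ifs <;> simp [mul_comm]

/-- `⟪x, (x',0)⟫ = |x'|²`. -/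
theorem nu_inner_pr (p : Fin n → Prop) [DecidablePred p] (x : E n) : ⟪x, nuPr p x⟫ = nuQ p x := by
  rw [real_inner_comm, nu_pr_inner]
  unfold nuQ
  exact Finset.sum_congr rfl fun i _ => (sq (x i)).symm

/-- the divergence of the projection. -/
theorem nu_pr_div (p : Fin n → Prop) [DecidablePred p] {a : ℕ} (ha : Fintype.card {i // p i} = a) (x : E n) :
    gmtDiv (nuPr p) x = a := by
  unfold gmtDiv
  rw [(nuPr p).fderiv, ← ha, Fintype.card_subtype, Finset.card_filter]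
  push_cast
  refine Finset.sum_congr rfl fun i _ => ?_
  rw [nu_pr_apply]
  simp

/-- the derivative of `Ψ(|x|²)`. -/
theorem nu_rad_hasFDerivAt {Ψ : ℝ → ℝ} (hΨ : ContDiff ℝ 1 Ψ) (x : E n) :
    HasFDerivAt (fun y : E n => Ψ (‖y‖ ^ 2)) (deriv Ψ (‖x‖ ^ 2) • (2 • innerSL ℝ x)) x :=
  ((hΨ.differentiable (by norm_num)) _).hasDerivAt.comp_hasFDerivAt x (hasStrictFDerivAt_norm_sq x).hasFDerivAt

/-- **L-NU-E** (1). `gmtDiv_smul`; `gmtDiv (nuPr p) = a`; `fderiv (Ψ(|·|²)) x v = 2 Ψ'(|x|²) ⟪x,v⟫`; `⟪x, nuPr p x⟫ = nuQ p x`. -/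
theorem nuX_div (p : Fin n → Prop) [DecidablePred p] {a : ℕ} (ha : Fintype.card {i // p i} = a)
    {Ψ : ℝ → ℝ} (hΨ : ContDiff ℝ 1 Ψ) (x : E n) :
    gmtDiv (nuX p Ψ) x = (a : ℝ) * Ψ (‖x‖ ^ 2) + 2 * deriv Ψ (‖x‖ ^ 2) * nuQ p x := by
  have h := nu_rad_hasFDerivAt hΨ x
  have h1 := gmtDiv_smul (φ := fun y : E n => Ψ (‖y‖ ^ 2)) (T := nuPr p) h.differentiableAt (nuPr p).differentiableAt
  have e : nuX p Ψ = fun y => Ψ (‖y‖ ^ 2) • nuPr p y := rfl
  rw [e, h1, nu_pr_div p ha, h.fderiv]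
  simp only [smul_apply, innerSL_apply_apply, nu_inner_pr, smul_eq_mul, nsmul_eq_mul]
  push_cast
  ring

/-- **L-NU-E** (2). -/
theorem nuX_test (p : Fin n → Prop) [DecidablePred p] {Ψ : ℝ → ℝ} (hΨ : ContDiff ℝ ∞ Ψ)
    (hc : HasCompactSupport Ψ) (h0 : tsupport Ψ ⊆ Ioi 0) : GmtTest ({0}ᶜ : Set (E n)) (nuX p Ψ) := by
  have hcont : Continuous fun x : E n => ‖x‖ ^ 2 := by fun_prop
  have hKc : IsClosed ((fun x : E n => ‖x‖ ^ 2) ⁻¹' tsupport Ψ) := (isClosed_tsupport Ψ).preimage hcont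
  have hsupp : Function.support (nuX p Ψ) ⊆ (fun x : E n => ‖x‖ ^ 2) ⁻¹' tsupport Ψ := by
    intro x hx
    refine subset_tsupport Ψ ?_
    intro h
    apply hx
    unfold nuX
    rw [h, zero_smul]
  have hts : tsupport (nuX p Ψ) ⊆ (fun x : E n => ‖x‖ ^ 2) ⁻¹' tsupport Ψ := closure_minimal hsupp hKc
  have hK : IsCompact ((fun x : E n => ‖x‖ ^ 2) ⁻¹' tsupport Ψ) := by
    refine Metric.isCompact_of_isClosed_isBounded hKc ?_
    obtain ⟨R, hR⟩ := hc.isCompact.isBounded.subset_closedBall 0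
    refine (Metric.isBounded_closedBall (x := (0 : E n)) (r := |R| + 1)).subset ?_
    intro x hx
    have h1 := hR hx
    rw [mem_closedBall, dist_zero_right, Real.norm_eq_abs, abs_of_nonneg (by positivity)] at h1
    rw [mem_closedBall, dist_zero_right]
    have h2 : R ≤ |R| := le_abs_self R
    have h3 := abs_nonneg R
    nlinarith [norm_nonneg x]
  refine ⟨?_, hK.of_isClosed_subset (isClosed_tsupport _) hts, ?_⟩
  · unfold nuX
    exact ((hΨ.of_le (by norm_num)).comp (contDiff_norm_sq ℝ)).smul (nuPr p).contDiff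
  · intro x hx
    have h1 := h0 (hts hx)
    intro h
    rw [mem_singleton_iff] at h
    rw [h] at h1
    simp at h1

/-- `|x'|² = ‖(x',0)‖²`. -/
theorem nu_q_eq_norm (p : Fin n → Prop) [DecidablePred p] (x : E n) : nuQ p x = ‖nuPr p x‖ ^ 2 := by
  rw [← real_inner_self_eq_norm_sq, nu_pr_inner]
  unfold nuQ
  refine Finset.sum_congr rfl fun i hi => ?_
  rw [nu_pr_apply, if_pos (Finset.mem_filter.1 hi).2, sq]

/-- the two blocks are orthogonal. -/
theorem nu_pr_orth (p : Fin n → Prop) [DecidablePred p] (x y : E n) : ⟪nuPr p x, nuPr (fun i => ¬ p i) y⟫ = 0 := by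
  rw [nu_pr_inner]
  refine Finset.sum_eq_zero fun i hi => ?_
  rw [nu_pr_apply, if_neg (not_not.2 (Finset.mem_filter.1 hi).2), mul_zero]

/-- `⟪(x',0), (y',0)⟫ = ⟪(x',0), y⟫`. -/
theorem nu_pr_inner_pr (p : Fin n → Prop) [DecidablePred p] (x y : E n) : ⟪nuPr p x, nuPr p y⟫ = ⟪nuPr p x, y⟫ := by
  rw [nu_pr_inner, nu_pr_inner]
  refine Finset.sum_congr rfl fun i hi => ?_
  rw [nu_pr_apply, if_pos (Finset.mem_filter.1 hi).2]

/-- the gradient of `|x'|²`. -/
theorem nu_q_hasGradientAt (p : Fin n → Prop) [DecidablePred p] (x : E n) :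
    HasGradientAt (nuQ p) ((2 : ℝ) • nuPr p x) x := by
  rw [hasGradientAt_iff_hasFDerivAt]
  have h1 : HasFDerivAt (fun y : E n => ‖nuPr p y‖ ^ 2) ((2 • innerSL ℝ (nuPr p x)).comp (nuPr p)) x :=
    (hasStrictFDerivAt_norm_sq (nuPr p x)).hasFDerivAt.comp x (nuPr p).hasFDerivAt
  have e1 : nuQ p = fun y : E n => ‖nuPr p y‖ ^ 2 := funext (nu_q_eq_norm p)
  have e2 : (InnerProductSpace.toDual ℝ (E n)) ((2 : ℝ) • nuPr p x) = (2 • innerSL ℝ (nuPr p x)).comp (nuPr p) := by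
    ext v
    rw [InnerProductSpace.toDual_apply_apply, ContinuousLinearMap.comp_apply, smul_apply, innerSL_apply_apply,
      nu_pr_inner_pr, inner_smul_left]
    simp
  rw [e1, e2]
  exact h1

/-- `|x'|²` is smooth. -/
theorem nu_q_contDiff (p : Fin n → Prop) [DecidablePred p] : ContDiff ℝ ∞ (nuQ p : E n → ℝ) := by
  have e1 : (nuQ p : E n → ℝ) = fun y : E n => ‖nuPr p y‖ ^ 2 := funext (nu_q_eq_norm p)
  rw [e1]
  exact (contDiff_norm_sq ℝ).comp (nuPr p).contDiff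

/-- the gradient of the defining function `β|x'|² - α|x''|²`. -/
theorem nu_phi_hasGradientAt (p : Fin n → Prop) [DecidablePred p] (α β : ℝ) (x : E n) :
    HasGradientAt (fun y : E n => β * nuQ p y - α * nuQ (fun i => ¬ p i) y)
      ((2 : ℝ) • (β • nuPr p x - α • nuPr (fun i => ¬ p i) x)) x := by
  rw [hasGradientAt_iff_hasFDerivAt]
  have h1 := ((nu_q_hasGradientAt p x).hasFDerivAt.const_mul β).sub
    ((nu_q_hasGradientAt (fun i => ¬ p i) x).hasFDerivAt.const_mul α)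
  have e2 : (InnerProductSpace.toDual ℝ (E n)) ((2 : ℝ) • (β • nuPr p x - α • nuPr (fun i => ¬ p i) x)) =
      β • (InnerProductSpace.toDual ℝ (E n)) ((2 : ℝ) • nuPr p x)
        - α • (InnerProductSpace.toDual ℝ (E n)) ((2 : ℝ) • nuPr (fun i => ¬ p i) x) := by
    ext v
    simp only [InnerProductSpace.toDual_apply_apply, sub_apply, smul_apply, inner_smul_left, inner_sub_left,
      smul_eq_mul]
    simp
    ring
  rw [e2]
  exact h1

/-- the length of the gradient. -/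
theorem nu_grad_norm_sq (p : Fin n → Prop) [DecidablePred p] (α β : ℝ) (x : E n) :
    ‖β • nuPr p x - α • nuPr (fun i => ¬ p i) x‖ ^ 2 = β ^ 2 * nuQ p x + α ^ 2 * nuQ (fun i => ¬ p i) x := by
  rw [norm_sub_sq_real, norm_smul, norm_smul, inner_smul_left, inner_smul_right, nu_pr_orth, mul_pow, mul_pow,
    ← nu_q_eq_norm, ← nu_q_eq_norm]
  simp

/-- the gradient does not vanish off the vertex. -/
theorem nu_grad_ne_zero (p : Fin n → Prop) [DecidablePred p] {α β : ℝ} (hα : 0 < α) (hβ : 0 < β) {x : E n}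
    (hx : x ≠ 0) : (2 : ℝ) • (β • nuPr p x - α • nuPr (fun i => ¬ p i) x) ≠ 0 := by
  intro h
  have h1 : β • nuPr p x - α • nuPr (fun i => ¬ p i) x = 0 := by
    rcases smul_eq_zero.1 h with h | h
    · norm_num at h
    · exact h
  have h2 := nu_grad_norm_sq p α β x
  rw [h1, norm_zero] at h2
  have q1 := nuQ_nonneg p x
  have q2 := nuQ_nonneg (fun i => ¬ p i) x
  have h3 : 0 < ‖x‖ ^ 2 := by positivity
  rw [← nuQ_add p x] at h3
  have h4 : 0 ≤ β ^ 2 * nuQ p x := by positivity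
  have h5 : 0 ≤ α ^ 2 * nuQ (fun i => ¬ p i) x := by positivity
  have h6 : β ^ 2 * nuQ p x = 0 := by
    norm_num at h2
    linarith
  have h7 : α ^ 2 * nuQ (fun i => ¬ p i) x = 0 := by
    norm_num at h2
    linarith
  have h8 : nuQ p x = 0 := by
    rcases mul_eq_zero.1 h6 with h | h
    · exact absurd h (by positivity)
    · exact h
  have h9 : nuQ (fun i => ¬ p i) x = 0 := by
    rcases mul_eq_zero.1 h7 with h | h
    · exact absurd h (by positivity)
    · exact h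
  rw [h8, h9] at h3
  norm_num at h3

/-- the value of `⟨(x',0), ν⟩` on the cone. -/
theorem nu_gg_pointwise (p : Fin n → Prop) [DecidablePred p] {α β : ℝ} (hα : 0 < α) (hβ : 0 < β) {x : E n}
    (hx : x ≠ 0) (h0 : β * nuQ p x - α * nuQ (fun i => ¬ p i) x = 0) :
    ⟪nuPr p x, ‖(2 : ℝ) • (β • nuPr p x - α • nuPr (fun i => ¬ p i) x)‖⁻¹ •
      ((2 : ℝ) • (β • nuPr p x - α • nuPr (fun i => ¬ p i) x))⟫ = √(α * β) / (α + β) * ‖x‖ := by
  have hN : 0 < ‖x‖ := norm_pos_iff.2 hx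
  have hadd := nuQ_add p x
  have hs : 0 < √(α * β) := Real.sqrt_pos.2 (mul_pos hα hβ)
  have hs2 : √(α * β) ^ 2 = α * β := Real.sq_sqrt (mul_pos hα hβ).le
  have hn2 : ‖β • nuPr p x - α • nuPr (fun i => ¬ p i) x‖ ^ 2 = (√(α * β) * ‖x‖) ^ 2 := by
    rw [nu_grad_norm_sq, mul_pow, hs2, ← hadd]
    linear_combination (β - α) * h0
  have hn : ‖β • nuPr p x - α • nuPr (fun i => ¬ p i) x‖ = √(α * β) * ‖x‖ :=
    (pow_left_inj₀ (norm_nonneg _) (by positivity) (by norm_num)).1 hn2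
  have hQ : β * nuQ p x = √(α * β) ^ 2 * ‖x‖ ^ 2 / (α + β) := by
    rw [hs2, ← hadd, eq_div_iff (by positivity)]
    linear_combination β * h0
  rw [norm_smul, hn, inner_smul_right, inner_smul_right, inner_sub_right, inner_smul_right, inner_smul_right,
    nu_pr_orth, nu_pr_inner_pr, real_inner_comm, nu_inner_pr, hQ]
  have h2 : ‖(2 : ℝ)‖ = 2 := by norm_num
  rw [h2]
  field_simp
  ring

/-- `nu_reg_global` for the cone. -/
theorem nu_cone_reg (p : Fin n → Prop) [DecidablePred p] {α β : ℝ} (hα : 0 < α) (hβ : 0 < β) :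
    GmtLF (nuCone p α β) ({0}ᶜ : Set (E n)) ∧
      gmtMu (nuCone p α β) (({0}ᶜ : Set (E n)) \ {y | β * nuQ p y - α * nuQ (fun i => ¬ p i) y = 0}) = 0 ∧
      ∀ᵐ y ∂((gmtMu (nuCone p α β)).restrict ({0}ᶜ : Set (E n))), gmtNu (nuCone p α β) y =
        ‖(2 : ℝ) • (β • nuPr p y - α • nuPr (fun i => ¬ p i) y)‖⁻¹ •
          ((2 : ℝ) • (β • nuPr p y - α • nuPr (fun i => ¬ p i) y)) := by
  have hsm : ContDiff ℝ ∞ (fun y : E n => β * nuQ p y - α * nuQ (fun i => ¬ p i) y) :=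
    (contDiff_const.mul (nu_q_contDiff p)).sub (contDiff_const.mul (nu_q_contDiff _))
  have h := nu_reg_global (U := ({0}ᶜ : Set (E n))) isOpen_compl_singleton
    (φ := fun y : E n => β * nuQ p y - α * nuQ (fun i => ¬ p i) y) hsm.contDiffOn
    (fun y hy h0 => by
      have h1 := (nu_phi_hasGradientAt p α β y).hasFDerivAt.fderiv
      rw [h0] at h1
      exact nu_grad_ne_zero p hα hβ hy ((map_eq_zero_iff _ (LinearIsometryEquiv.injective _)).1 h1.symm))
    (S := nuCone p α β) (nuCone_isOpen p α β).measurableSet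
    (fun y _ => by
      unfold nuCone
      rw [mem_ofPred_eq, sub_neg])
  refine ⟨h.1, h.2.1, ?_⟩
  filter_upwards [h.2.2] with y hy
  rw [hy, (nu_phi_hasGradientAt p α β y).gradient]

/-- **L-NU-F** (Gauss-Green).  `φ x = β nuQ p x - α nuQ (¬p) x`, `gradient φ x = 2 (β x' - α x'')`, `≠ 0` for `x ≠ 0`.  `nu_reg_global` on `U = {0}ᶜ`, `gmt_gauss_green_restrict` with `T = nuX p Ψ`.
On `{φ = 0}`: `|x'|² = α|x|²/(α+β)`, `|x''|² = β|x|²/(α+β)`, `|∇φ| = 2 √(αβ) |x|`, `⟪(x',0), ∇φ⟫ = 2 β |x'|²`.   The integrand vanishes at `0`. -/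
theorem nu_gg (p : Fin n → Prop) [DecidablePred p] {α β : ℝ} (hα : 0 < α) (hβ : 0 < β) {Ψ : ℝ → ℝ}
    (hΨ : ContDiff ℝ ∞ Ψ) (hc : HasCompactSupport Ψ) (h0 : tsupport Ψ ⊆ Ioi 0) :
    ∫ x in nuCone p α β, gmtDiv (nuX p Ψ) x =
      √(α * β) / (α + β) * ∫ x, Ψ (‖x‖ ^ 2) * ‖x‖ ∂((gmtMu (nuCone p α β)).restrict {0}ᶜ) := by
  obtain ⟨hLF, hnull, hnu⟩ := nu_cone_reg p hα hβ
  have hU : IsOpen ({0}ᶜ : Set (E n)) := isOpen_compl_singleton
  rw [gmt_gauss_green_restrict hU hLF (nuX_test p hΨ hc h0), ← integral_const_mul]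
  have hz : ∀ᵐ y ∂((gmtMu (nuCone p α β)).restrict ({0}ᶜ : Set (E n))),
      β * nuQ p y - α * nuQ (fun i => ¬ p i) y = 0 := by
    rw [ae_restrict_iff' hU.measurableSet, ae_iff]
    refine measure_mono_null ?_ hnull
    intro y hy
    rw [mem_ofPred_eq, Classical.not_imp] at hy
    exact hy
  refine integral_congr_ae ?_
  filter_upwards [hnu, hz, ae_restrict_mem hU.measurableSet] with y h1 h2 h3
  rw [h1]
  unfold nuX
  rw [inner_smul_left, nu_gg_pointwise p hα hβ h3 h2]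
  simp
  ring

/-- `S` has locally finite perimeter off the vertex (part of **L-NU-F**). -/
theorem nuCone_lf (p : Fin n → Prop) [DecidablePred p] {α β : ℝ} (hα : 0 < α) (hβ : 0 < β) :
    GmtLF (nuCone p α β) ({0}ᶜ : Set (E n)) := by
  exact (nu_cone_reg p hα hβ).1

/-- **L-NU-K** (the constant). -/
theorem nu_const {a b : ℕ} (ha1 : 1 ≤ a) (hb1 : 1 ≤ b) {α β : ℝ} (hα : 0 < α) (hβ : 0 < β) :
    √(α / β) ^ a / √((α + β) / β) ^ (a + b) / (√(α * β) / (α + β)) =
      √(α ^ (a - 1) * β ^ (b - 1) / (α + β) ^ (a + b - 2)) := by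
  obtain ⟨a', rfl⟩ : ∃ a', a = a' + 1 := ⟨a - 1, by omega⟩
  obtain ⟨b', rfl⟩ : ∃ b', b = b' + 1 := ⟨b - 1, by omega⟩
  have hs : 0 < α + β := by positivity
  generalize α + β = s at hs ⊢
  obtain ⟨A, hA, rfl⟩ : ∃ A : ℝ, 0 < A ∧ α = A ^ 2 := ⟨√α, Real.sqrt_pos.2 hα, (Real.sq_sqrt hα.le).symm⟩
  obtain ⟨B, hB, rfl⟩ : ∃ B : ℝ, 0 < B ∧ β = B ^ 2 := ⟨√β, Real.sqrt_pos.2 hβ, (Real.sq_sqrt hβ.le).symm⟩
  obtain ⟨S, hS, rfl⟩ : ∃ S : ℝ, 0 < S ∧ s = S ^ 2 := ⟨√s, Real.sqrt_pos.2 hs, (Real.sq_sqrt hs.le).symm⟩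
  have e1 : √(A ^ 2 / B ^ 2) = A / B := by
    rw [← div_pow, Real.sqrt_sq (by positivity)]
  have e2 : √(S ^ 2 / B ^ 2) = S / B := by
    rw [← div_pow, Real.sqrt_sq (by positivity)]
  have e3 : √(A ^ 2 * B ^ 2) = A * B := by
    rw [← mul_pow, Real.sqrt_sq (by positivity)]
  have e4 : (A ^ 2) ^ (a' + 1 - 1) * (B ^ 2) ^ (b' + 1 - 1) / (S ^ 2) ^ (a' + 1 + (b' + 1) - 2)
      = (A ^ a' * B ^ b' / S ^ (a' + b')) ^ 2 := by
    have h1 : a' + 1 - 1 = a' := by omega
    have h2 : b' + 1 - 1 = b' := by omega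
    have h3 : a' + 1 + (b' + 1) - 2 = a' + b' := by omega
    rw [h1, h2, h3, div_pow, mul_pow, ← pow_mul, ← pow_mul, ← pow_mul, ← pow_mul, ← pow_mul, ← pow_mul,
      mul_comm 2 a', mul_comm 2 b', mul_comm 2 (a' + b')]
  rw [e1, e2, e3, e4, Real.sqrt_sq (by positivity), div_pow, div_pow]
  have hA' := hA.ne'
  have hB' := hB.ne'
  have hS' := hS.ne'
  have e5 : A ^ (a' + 1) / B ^ (a' + 1) / (S ^ (a' + 1 + (b' + 1)) / B ^ (a' + 1 + (b' + 1))) / (A * B / S ^ 2)
      = (A ^ (a' + 1) * B ^ (a' + 1 + (b' + 1)) * S ^ 2) / (B ^ (a' + 1) * S ^ (a' + 1 + (b' + 1)) * (A * B)) := by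
    have h1 : B ^ (a' + 1) ≠ 0 := by positivity
    have h2 : S ^ (a' + 1 + (b' + 1)) ≠ 0 := by positivity
    have h3 : B ^ (a' + 1 + (b' + 1)) ≠ 0 := by positivity
    generalize A ^ (a' + 1) = x at *
    generalize B ^ (a' + 1) = y at *
    generalize S ^ (a' + 1 + (b' + 1)) = z at *
    generalize B ^ (a' + 1 + (b' + 1)) = w at *
    field_simp
  rw [e5, div_eq_div_iff (by positivity) (by positivity)]
  ring

/-! ### the result -/

/-- **the area of the link of a quadratic cone.** -/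
theorem nu_cone_area (p : Fin n → Prop) [DecidablePred p] {a b : ℕ} (ha : Fintype.card {i // p i} = a)
    (hb : Fintype.card {i // ¬ p i} = b) (ha1 : 1 ≤ a) (hb1 : 1 ≤ b) {α β : ℝ} (hα : 0 < α)
    (hβ : 0 < β) :
    ((n : ℝ) - 1) * (gmtMu (nuCone p α β) (ball 0 1)).toReal =
      ((a : ℝ) * nuOm a) * ((b : ℝ) * nuOm b) *
        √(α ^ (a - 1) * β ^ (b - 1) / (α + β) ^ (a + b - 2)) := by
  have hab : a + b = n := by
    rw [← ha, ← hb, Fintype.card_subtype_compl, ← Nat.add_sub_assoc (Fintype.card_subtype_le p)]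
    simp
  have hn : 2 ≤ n := by omega
  obtain ⟨q, hq⟩ : ∃ q, n = q + 2 := ⟨n - 2, by omega⟩
  set S := nuCone p α β with hSdef
  have hSm : MeasurableSet S := (nuCone_isOpen p α β).measurableSet
  have hc0 : 0 < √(α * β) / (α + β) := by positivity
  set K : ℝ := ((a : ℝ) * nuOm a) * ((b : ℝ) * nuOm b) *
    (√(α / β) ^ a / √((α + β) / β) ^ (a + b)) / (√(α * β) / (α + β)) with hK
  have hK0 : 0 ≤ K := by
    have h1 : 0 ≤ nuOm a := ENNReal.toReal_nonneg
    have h2 : 0 ≤ nuOm b := ENNReal.toReal_nonneg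
    positivity
  have hU : IsOpen ({0}ᶜ : Set (E n)) := isOpen_compl_singleton
  have hLF := nuCone_lf p hα hβ
  have key := nu_extract (μ := (gmtMu S).restrict {0}ᶜ) (K := K) (q := q)
    (fun C hC h0 => ne_top_of_le_ne_top
      (gmtMu_compact_ne_top hU hLF hC (fun x hx h => h0 (by rw [← (h : x = 0)]; exact hx)))
      (Measure.restrict_apply_le _ _)) hK0
    (fun Ψ hΨ hc h0 => by
      have h1 := nu_gg p hα hβ hΨ hc h0
      have h2 := nu_lhs p ha hb ha1 hα hβ (hΨ.of_le (by norm_num)) hc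
      have h3 := nu_lhs_scale (a := a) hb1 hα hβ Ψ
      simp only [nuX_div p ha (hΨ.of_le (by norm_num) : ContDiff ℝ 1 Ψ)] at h1
      have h4 : a + b - 1 = q + 1 := by omega
      rw [h4] at h3
      rw [h3] at h2
      have h5 : ∫ x in nuCone p α β, ((a : ℝ) * Ψ (‖x‖ ^ 2) + 2 * deriv Ψ (‖x‖ ^ 2) * nuQ p x) =
          ∫ x in {x : EuclideanSpace ℝ (Fin n) | β * nuQ p x < α * nuQ (fun i => ¬ p i) x},
            ((a : ℝ) * Ψ (‖x‖ ^ 2) + 2 * deriv Ψ (‖x‖ ^ 2) * nuQ p x) := rfl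
      rw [h5, h2] at h1
      rw [hK]
      field_simp
      field_simp at h1
      linarith)
  have h1 : gmtMu S (ball 0 1) = gmtMu S (ball 0 1 \ {0}) := by
    refine le_antisymm ?_ (measure_mono diff_subset)
    rw [gmtMu_open S isOpen_ball, gmtMu_open S (isOpen_ball.sdiff isClosed_singleton)]
    exact nu_remove_point hn hSm isOpen_ball 0
  have h2 : (gmtMu S).restrict {0}ᶜ (ball 0 1 \ {0}) = gmtMu S (ball 0 1 \ {0}) := by
    rw [Measure.restrict_apply (measurableSet_ball.diff (measurableSet_singleton 0))]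
    congr 1
    ext x
    simp only [mem_inter_iff, mem_diff, mem_compl_iff]
    tauto
  rw [h1, ← h2, key, ENNReal.toReal_ofReal (by positivity), hK, ← nu_const ha1 hb1 hα hβ]
  have h3 : (n : ℝ) - 1 = (q : ℝ) + 1 := by
    rw [hq]
    push_cast
    ring
  rw [h3]
  field_simp

end Claimed.Agent.R323
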