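import Claimed.Agent.R323.Defs
import Claimed.Agent.R323.Nu.Cone

/-!
# Row 323, block N (numerics): CONTRACT.      (owner: helper59)
`ϑ_m = a_m/σ_m` is nonincreasing, `a_m < 2 σ_m` (paper Lemma `lem:clifford-ratios`).
`nuc_sig_eq : sig m = nuSig m`, `nuc_link : linkArea (cliffCone m j) = nuTh m j * nuSig m` (`Nu/Cone.lean`: `nu_cone_area`), `nuc_cliffMin : cliffMin m = nuMin m * nuSig m`; numerics: `Nu/{Wallis,Theta,Gamma}.lean`.
-/

set_option autoImplicit false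
open scoped ContDiff ENNReal NNReal RealInnerProductSpace Topology
open MeasureTheory Metric Set Filter

namespace Claimed.Agent.R323

open Claimed.Agent.Gmt

/-- `σ_m = (m+1) ω_{m+1}`. -/
theorem nuc_sig_eq (m : ℕ) : sig m = nuSig m := by
  unfold sig linkArea
  have he : ‖(eb 0 : E (m + 2))‖ = 1 := by simp
  rw [gmtMu_open _ isOpen_ball, gmtP_half_ball (by omega) 0 he one_pos, one_pow, mul_one,
    ENNReal.toReal_ofReal (show 0 ≤ gmtOm (m + 2 - 1) from ENNReal.toReal_nonneg), nuSig_eq_om]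
  have e : m + 2 - 1 = m + 1 := by omega
  rw [e]
  push_cast
  have : gmtOm (m + 1) = nuOm (m + 1) := rfl
  rw [this]
  ring

theorem nuc_card_le (m j : ℕ) (hj : j < m) :
    Fintype.card {i : Fin (m + 2) // i.val ≤ j} = j + 1 := by
  rw [Fintype.card_subtype]
  have : (Finset.univ.filter fun i : Fin (m + 2) => i.val ≤ j) = Finset.Iic ⟨j, by omega⟩ := by
    ext i
    simp [Fin.le_def]
  rw [this, Fin.card_Iic]

theorem nuc_card_not_le (m j : ℕ) (hj : j < m) :
    Fintype.card {i : Fin (m + 2) // ¬ i.val ≤ j} = m - j + 1 := by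
  rw [Fintype.card_subtype_compl, nuc_card_le m j hj, Fintype.card_fin]
  omega

theorem nuc_cone_eq (m j : ℕ) :
    cliffCone m j = nuCone (fun i : Fin (m + 2) => i.val ≤ j) (j : ℝ) ((m : ℝ) - j) := by
  unfold cliffCone nuCone nuQ
  simp only [not_le]

/-- **the areas of the Clifford products.** -/
theorem nuc_link (m j : ℕ) (hj1 : 1 ≤ j) (hj : j < m) :
    linkArea (cliffCone m j) = nuTh m j * nuSig m := by
  have hα : (0 : ℝ) < j := by exact_mod_cast hj1
  have hβ : (0 : ℝ) < (m : ℝ) - j := by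
    have : (j : ℝ) < m := by exact_mod_cast hj
    linarith
  have h := nu_cone_area (fun i : Fin (m + 2) => i.val ≤ j) (nuc_card_le m j hj)
    (nuc_card_not_le m j hj) (by omega) (by omega) hα hβ
  unfold linkArea
  rw [nuc_cone_eq, h]
  have e1 : j + 1 - 1 = j := by omega
  have e2 : m - j + 1 - 1 = m - j := by omega
  have e3 : j + 1 + (m - j + 1) - 2 = m := by omega
  have e4 : (j : ℝ) + ((m : ℝ) - j) = m := by ring
  have e5 : (m : ℝ) - j = ((m - j : ℕ) : ℝ) := by rw [Nat.cast_sub hj.le]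
  rw [e1, e2, e3, e4, e5]
  have s1 := nuSig_eq_om j
  have s2 := nuSig_eq_om (m - j)
  push_cast at s1 s2 ⊢
  rw [← s1, ← s2]
  unfold nuTh
  have hm0 : (0 : ℝ) < m := by
    have : (0 : ℝ) ≤ j := hα.le
    have : (j : ℝ) < m := by exact_mod_cast hj
    linarith
  rw [nuP_eq_sqrt j, nuP_eq_sqrt (m - j), nuP_eq_sqrt m, Real.sqrt_div (by positivity),
    Real.sqrt_mul (by positivity)]
  have h1 := (nuSig_pos m).ne'
  have h2 : Real.sqrt ((m : ℝ) ^ m) ≠ 0 := (Real.sqrt_pos.2 (by positivity)).ne'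
  field_simp

theorem nuc_cliffMin (m : ℕ) (hm : 2 ≤ m) : cliffMin m = nuMin m * nuSig m := by
  have hσ := nuSig_pos m
  unfold cliffMin
  apply le_antisymm
  · obtain ⟨k, hk1, hk, he⟩ := nuMin_mem hm
    rw [he, ← nuc_link m k hk1 hk]
    refine csInf_le ⟨0, ?_⟩ ⟨k, ⟨hk1, hk⟩, rfl⟩
    rintro _ ⟨j, ⟨hj1, hj⟩, rfl⟩
    show 0 ≤ linkArea (cliffCone m j)
    rw [nuc_link m j hj1 hj]
    exact (mul_pos (nuTh_pos m j) hσ).le
  · refine le_csInf ⟨_, 1, ⟨le_rfl, by omega⟩, rfl⟩ ?_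
    rintro _ ⟨j, ⟨hj1, hj⟩, rfl⟩
    show _ ≤ linkArea (cliffCone m j)
    rw [nuc_link m j hj1 hj]
    exact mul_le_mul_of_nonneg_right (nuMin_le hj1 hj) hσ.le

theorem nuc_sig_pos (m : ℕ) : 0 < sig m := by
  rw [nuc_sig_eq]
  exact nuSig_pos m

theorem nuc_lt_two (m : ℕ) (hm : 2 ≤ m) : cliffMin m < 2 * sig m := by
  rw [nuc_cliffMin m hm, nuc_sig_eq]
  exact mul_lt_mul_of_pos_right (nu_min_lt_two hm) (nuSig_pos m)

theorem nuc_mono (k m : ℕ) (hk : 2 ≤ k) (hkm : k ≤ m) : cliffMin m / sig m ≤ cliffMin k / sig k := by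
  rw [nuc_cliffMin m (hk.trans hkm), nuc_cliffMin k hk, nuc_sig_eq, nuc_sig_eq,
    mul_div_assoc, mul_div_assoc, div_self (nuSig_pos m).ne', div_self (nuSig_pos k).ne', mul_one,
    mul_one]
  exact nu_min_anti hk hkm

end Claimed.Agent.R323
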