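import Claimed.Agent.R323.Nu.Gamma

/-!
# Row 323 (S0580), block N (architect helper59), file 3: bi-radial integration.   MATHLIB ONLY.

`E n = ℝ^a × ℝ^b`, the first block = the coordinates `i` with `p i`.  `nuQ p x = |x'|²`, `nuQ (¬p) x = |x''|²`.
LEAVES (one theorem = one leaf; prove IN PLACE, auxiliary lemmas directly above, prefix `nu_`):
* `L-NU-G`  `nuSig_eq_om`      : `nuSig j = (j+1) ω_{j+1}`.
* `L-NU-A`  `nu_birad`         : `∫ G(|x'|,|x''|) dx = aω_a bω_b ∫_0^∞ s^{b-1} ∫_0^∞ r^{a-1} G(r,s) dr ds`.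
* `L-NU-B`  `nu_lhs`           : the integral of `div (Ψ(|x|²)(x',0))` over the cone `{β|x'|² < α|x''|²}`.
-/

set_option autoImplicit false
open scoped ContDiff ENNReal
open MeasureTheory Metric Set Real

namespace Claimed.Agent.R323

variable {n : ℕ}

/-- the volume of the unit ball of `ℝ^k` (`= Gmt.gmtOm k` by `rfl`). -/
noncomputable def nuOm (k : ℕ) : ℝ := (volume (ball (0 : EuclideanSpace ℝ (Fin k)) 1)).toReal

/-- **L-NU-G**.  Both sides satisfy `σ_{j+2} = 2π σ_j/(j+1)`: `(j+1) W_j W_{j+1} = 2π` (induction, `nuW_add_two`), `EuclideanSpace.volume_ball` + `Real.Gamma_add_one`; `σ_0 = 2`, `σ_1 = 2π`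
(`Real.Gamma_one_half_eq`, `Real.Gamma_one`...). -/
theorem nuSig_eq_om (j : ℕ) : nuSig j = ((j : ℝ) + 1) * nuOm (j + 1) := by
  have h := congrArg ENNReal.toReal (nug_sig_eq_volume j)
  rw [ENNReal.toReal_ofReal (nuSig_pos j).le, ENNReal.toReal_mul, ENNReal.toReal_natCast] at h
  rw [h]
  unfold nuOm
  push_cast
  rfl

/-- the squared length of the block of the coordinates `i` with `p i`. -/
noncomputable def nuQ (p : Fin n → Prop) [DecidablePred p] (x : EuclideanSpace ℝ (Fin n)) : ℝ :=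
  ∑ i with p i, x i ^ 2

theorem nuQ_nonneg (p : Fin n → Prop) [DecidablePred p] (x : EuclideanSpace ℝ (Fin n)) : 0 ≤ nuQ p x :=
  Finset.sum_nonneg fun _ _ => sq_nonneg _

theorem nuQ_add (p : Fin n → Prop) [DecidablePred p] (x : EuclideanSpace ℝ (Fin n)) :
    nuQ p x + nuQ (fun i => ¬ p i) x = ‖x‖ ^ 2 := by
  unfold nuQ
  rw [Finset.sum_filter_add_sum_filter_not, EuclideanSpace.norm_sq_eq]
  simp

theorem nuQ_continuous (p : Fin n → Prop) [DecidablePred p] : Continuous (nuQ p) := by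
  unfold nuQ
  fun_prop

/-- the volume of the unit ball of `EuclideanSpace ℝ ι` depends only on `card ι`. -/
theorem nu_ball_card (ι : Type) [Fintype ι] [Nonempty ι] {a : ℕ} (ha : Fintype.card ι = a) :
    (volume : Measure (EuclideanSpace ℝ ι)).real (ball 0 1) = nuOm a := by
  have : Nonempty (Fin a) := by
    rw [← ha]
    exact ⟨⟨0, Fintype.card_pos⟩⟩
  unfold nuOm Measure.real
  rw [EuclideanSpace.volume_ball, EuclideanSpace.volume_ball, ha, Fintype.card_fin]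

/-- the splitting `ℝ^n = ℝ^a × ℝ^b`. -/
noncomputable def nuSplit (p : Fin n → Prop) [DecidablePred p] :
    EuclideanSpace ℝ (Fin n) ≃ᵐ EuclideanSpace ℝ {i // p i} × EuclideanSpace ℝ {i // ¬ p i} :=
  (MeasurableEquiv.toLp 2 (Fin n → ℝ)).symm.trans
    ((MeasurableEquiv.piEquivPiSubtypeProd (fun _ : Fin n => ℝ) p).trans
      (MeasurableEquiv.prodCongr (MeasurableEquiv.toLp 2 ({i // p i} → ℝ)) (MeasurableEquiv.toLp 2 ({i // ¬ p i} → ℝ))))

theorem nuSplit_mp (p : Fin n → Prop) [DecidablePred p] : MeasurePreserving (nuSplit p) volume volume := by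
  unfold nuSplit
  refine (EuclideanSpace.volume_preserving_symm_measurableEquiv_toLp (Fin n)).trans
    ((volume_preserving_piEquivPiSubtypeProd (fun _ : Fin n => ℝ) p).trans ?_)
  exact (PiLp.volume_preserving_toLp _).prod (PiLp.volume_preserving_toLp _)

theorem nuSplit_fst (p : Fin n → Prop) [DecidablePred p] (x : EuclideanSpace ℝ (Fin n)) :
    ‖(nuSplit p x).1‖ = √(nuQ p x) := by
  rw [EuclideanSpace.norm_eq]
  congr 1
  unfold nuQ
  rw [Finset.sum_subtype (p := p) (Finset.univ.filter p) (by simp)]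
  refine Finset.sum_congr rfl fun i _ => ?_
  rw [Real.norm_eq_abs, sq_abs]
  rfl

theorem nuSplit_snd (p : Fin n → Prop) [DecidablePred p] (x : EuclideanSpace ℝ (Fin n)) :
    ‖(nuSplit p x).2‖ = √(nuQ (fun i => ¬ p i) x) := by
  rw [EuclideanSpace.norm_eq]
  congr 1
  unfold nuQ
  rw [Finset.sum_subtype (p := fun i => ¬ p i) (Finset.univ.filter fun i => ¬ p i) (by simp)]
  refine Finset.sum_congr rfl fun i _ => ?_
  rw [Real.norm_eq_abs, sq_abs]
  rfl

/-- **L-NU-A** (bi-radial Fubini; `1 ≤ a`, `1 ≤ b` are needed: for `a = 0` the right side is `0`).  `e : E n ≃ᵐ EuclideanSpace ℝ {i // p i} × EuclideanSpace ℝ {i // ¬ p i}` measure preserving (`PiLp.volume_preserving_ofLp`, `volume_preserving_piEquivPiSubtypeProd`,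
`PiLp.volume_preserving_toLp` in both factors, `MeasurePreserving.prod`); `√(nuQ p x) = ‖(e x).1‖` (`EuclideanSpace.norm_eq`, `Finset.sum_subtype`);  `integral_prod` (swap: `integral_prod_symm`), then `integral_fun_norm_addHaar`
twice; the volume of the unit ball of `EuclideanSpace ℝ ι` depends only on `card ι` (`EuclideanSpace.volume_ball`). -/
theorem nu_birad (p : Fin n → Prop) [DecidablePred p] {a b : ℕ} (ha : Fintype.card {i // p i} = a)
    (hb : Fintype.card {i // ¬ p i} = b) (ha1 : 1 ≤ a) (hb1 : 1 ≤ b) (G : ℝ → ℝ → ℝ)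
    (hG : Integrable (fun x : EuclideanSpace ℝ (Fin n) => G (√(nuQ p x)) (√(nuQ (fun i => ¬ p i) x)))) :
    ∫ x : EuclideanSpace ℝ (Fin n), G (√(nuQ p x)) (√(nuQ (fun i => ¬ p i) x)) =
      ((a : ℝ) * nuOm a) * ((b : ℝ) * nuOm b) *
        ∫ s in Ioi (0 : ℝ), s ^ (b - 1) * ∫ r in Ioi (0 : ℝ), r ^ (a - 1) * G r s := by
  have hne1 : Nonempty {i // p i} := Fintype.card_pos_iff.1 (by omega)
  have hne2 : Nonempty {i // ¬ p i} := Fintype.card_pos_iff.1 (by omega)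
  have e0 : (fun x : EuclideanSpace ℝ (Fin n) => G (√(nuQ p x)) (√(nuQ (fun i => ¬ p i) x)))
      = (fun y : EuclideanSpace ℝ {i // p i} × EuclideanSpace ℝ {i // ¬ p i} => G ‖y.1‖ ‖y.2‖) ∘ nuSplit p := by
    funext x
    simp only [Function.comp_apply, nuSplit_fst, nuSplit_snd]
  have hG' : Integrable (fun y : EuclideanSpace ℝ {i // p i} × EuclideanSpace ℝ {i // ¬ p i} => G ‖y.1‖ ‖y.2‖) := by
    rw [e0] at hG
    exact ((nuSplit_mp p).integrable_comp_emb (nuSplit p).measurableEmbedding).1 hG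
  have e1 : ∫ x : EuclideanSpace ℝ (Fin n), G (√(nuQ p x)) (√(nuQ (fun i => ¬ p i) x))
      = ∫ y : EuclideanSpace ℝ {i // p i} × EuclideanSpace ℝ {i // ¬ p i}, G ‖y.1‖ ‖y.2‖ := by
    rw [e0]
    exact (nuSplit_mp p).integral_comp'
      (fun y : EuclideanSpace ℝ {i // p i} × EuclideanSpace ℝ {i // ¬ p i} => G ‖y.1‖ ‖y.2‖)
  rw [e1]
  have e2 := integral_prod_symm _ hG'
  rw [show (volume : Measure (EuclideanSpace ℝ {i // p i} × EuclideanSpace ℝ {i // ¬ p i})) = volume.prod volume from rfl, e2]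
  have e3 : ∀ y : EuclideanSpace ℝ {i // ¬ p i}, ∫ x : EuclideanSpace ℝ {i // p i}, G ‖x‖ ‖y‖
      = (fun s : ℝ => ((a : ℝ) * nuOm a) * ∫ r in Ioi (0 : ℝ), r ^ (a - 1) * G r s) ‖y‖ := by
    intro y
    have := integral_fun_norm_addHaar (volume : Measure (EuclideanSpace ℝ {i // p i})) (fun r => G r ‖y‖)
    rw [this, finrank_euclideanSpace, ha, nu_ball_card _ ha]
    simp only [nsmul_eq_mul, smul_eq_mul]
    ring
  simp only [e3]
  have e4 := integral_fun_norm_addHaar (volume : Measure (EuclideanSpace ℝ {i // ¬ p i}))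
    (fun s : ℝ => ((a : ℝ) * nuOm a) * ∫ r in Ioi (0 : ℝ), r ^ (a - 1) * G r s)
  rw [e4, finrank_euclideanSpace, hb, nu_ball_card _ hb]
  simp only [nsmul_eq_mul, smul_eq_mul]
  have e5 : ∀ s : ℝ, s ^ (b - 1) * (((a : ℝ) * nuOm a) * ∫ r in Ioi (0 : ℝ), r ^ (a - 1) * G r s)
      = ((a : ℝ) * nuOm a) * (s ^ (b - 1) * ∫ r in Ioi (0 : ℝ), r ^ (a - 1) * G r s) := fun s => by ring
  simp only [e5]
  rw [integral_const_mul]
  ring

/-- the inner integral of `nu_lhs` (fundamental theorem of calculus). -/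
theorem nu_lhs_inner {a : ℕ} (ha1 : 1 ≤ a) {α β : ℝ} (hα : 0 < α) (hβ : 0 < β) {Ψ : ℝ → ℝ} (hΨ : ContDiff ℝ 1 Ψ)
    {s : ℝ} (hs : 0 < s) :
    ∫ r in Ioi (0 : ℝ), r ^ (a - 1) * (if β * r ^ 2 < α * s ^ 2 then
        (a : ℝ) * Ψ (r ^ 2 + s ^ 2) + 2 * deriv Ψ (r ^ 2 + s ^ 2) * r ^ 2 else 0)
      = Ψ ((α + β) / β * s ^ 2) * (√(α / β) * s) ^ a := by
  have hq : 0 < α / β := by positivity
  obtain ⟨L, hLdef⟩ : ∃ L : ℝ, L = √(α / β) * s := ⟨_, rfl⟩
  have hL : 0 < L := by rw [hLdef]; exact mul_pos (Real.sqrt_pos.2 hq) hs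
  have hL2 : L ^ 2 = α / β * s ^ 2 := by rw [hLdef, mul_pow, Real.sq_sqrt hq.le]
  have hiff : ∀ r : ℝ, 0 < r → (β * r ^ 2 < α * s ^ 2 ↔ r < L) := by
    intro r hr
    have e : α * s ^ 2 = β * L ^ 2 := by rw [hL2]; field_simp
    rw [e, mul_lt_mul_iff_right₀ hβ]
    exact pow_lt_pow_iff_left₀ hr.le hL.le two_ne_zero
  rw [← hLdef]
  have e1 : ∫ r in Ioi (0 : ℝ), r ^ (a - 1) * (if β * r ^ 2 < α * s ^ 2 then
        (a : ℝ) * Ψ (r ^ 2 + s ^ 2) + 2 * deriv Ψ (r ^ 2 + s ^ 2) * r ^ 2 else 0)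
      = ∫ r in Ioi (0 : ℝ), (Iio L).indicator (fun r : ℝ => r ^ (a - 1) *
        ((a : ℝ) * Ψ (r ^ 2 + s ^ 2) + 2 * deriv Ψ (r ^ 2 + s ^ 2) * r ^ 2)) r := by
    refine setIntegral_congr_fun measurableSet_Ioi fun r hr => ?_
    have hr0 : 0 < r := hr
    by_cases h : r < L
    · simp only [(hiff r hr0).2 h, if_true, Set.indicator_of_mem (show r ∈ Iio L from h)]
    · have h' : ¬ β * r ^ 2 < α * s ^ 2 := fun hh => h ((hiff r hr0).1 hh)
      simp only [h', if_false, mul_zero, Set.indicator_of_notMem (show r ∉ Iio L from h)]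
  rw [e1, setIntegral_indicator measurableSet_Iio, Set.Ioi_inter_Iio, ← integral_Ioc_eq_integral_Ioo,
    ← intervalIntegral.integral_of_le hL.le]
  have hd : ∀ r ∈ uIcc 0 L, HasDerivAt (fun r : ℝ => Ψ (r ^ 2 + s ^ 2) * r ^ a)
      (r ^ (a - 1) * ((a : ℝ) * Ψ (r ^ 2 + s ^ 2) + 2 * deriv Ψ (r ^ 2 + s ^ 2) * r ^ 2)) r := by
    intro r _
    have h1 : HasDerivAt Ψ (deriv Ψ (r ^ 2 + s ^ 2)) (r ^ 2 + s ^ 2) :=
      ((hΨ.differentiable one_ne_zero) _).hasDerivAt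
    have h2 : HasDerivAt (fun r : ℝ => r ^ 2 + s ^ 2) (2 * r) r := by
      simpa using (hasDerivAt_pow 2 r).add_const (s ^ 2)
    have h3 := (h1.comp r h2).mul (hasDerivAt_pow a r)
    refine h3.congr_deriv ?_
    have e : r ^ a = r ^ (a - 1) * r := by
      rw [← pow_succ]
      congr 1
      omega
    rw [e]
    simp only [Function.comp_apply]
    ring
  have hcont : Continuous (fun r : ℝ => r ^ (a - 1) * ((a : ℝ) * Ψ (r ^ 2 + s ^ 2) + 2 * deriv Ψ (r ^ 2 + s ^ 2) * r ^ 2)) := by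
    have c1 : Continuous Ψ := hΨ.continuous
    have c2 : Continuous (deriv Ψ) := hΨ.continuous_deriv le_rfl
    fun_prop
  rw [intervalIntegral.integral_eq_sub_of_hasDerivAt hd (hcont.intervalIntegrable _ _)]
  have e0 : (0 : ℝ) ^ a = 0 := zero_pow (by omega)
  rw [e0, mul_zero, sub_zero, hL2]
  congr 2
  field_simp

/-- **L-NU-B**.  `nu_birad` with `G r s = if β r² < α s² then a Ψ(r²+s²) + 2 Ψ'(r²+s²) r² else 0`; for `s > 0` the inner integral is `∫_0^{λ s} d/dr [Ψ(r²+s²) r^a] dr = Ψ((α+β)/β s²) (λ s)^a`, `λ = √(α/β)`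
(`intervalIntegral.integral_eq_sub_of_hasDerivAt`, `integral_Ioc`/`intervalIntegral.integral_of_le`; `β r² < α s² ↔ r < λ s` for `r, s > 0`).  Integrability of `G(..)`: bounded, measurable, compact support. -/
theorem nu_lhs (p : Fin n → Prop) [DecidablePred p] {a b : ℕ} (ha : Fintype.card {i // p i} = a)
    (hb : Fintype.card {i // ¬ p i} = b) (ha1 : 1 ≤ a) {α β : ℝ} (hα : 0 < α) (hβ : 0 < β)
    {Ψ : ℝ → ℝ} (hΨ : ContDiff ℝ 1 Ψ) (hc : HasCompactSupport Ψ) :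
    ∫ x in {x : EuclideanSpace ℝ (Fin n) | β * nuQ p x < α * nuQ (fun i => ¬ p i) x},
        ((a : ℝ) * Ψ (‖x‖ ^ 2) + 2 * deriv Ψ (‖x‖ ^ 2) * nuQ p x) =
      ((a : ℝ) * nuOm a) * ((b : ℝ) * nuOm b) *
        ∫ s in Ioi (0 : ℝ), s ^ (b - 1) * (Ψ ((α + β) / β * s ^ 2) * (√(α / β) * s) ^ a) := by
  rcases Nat.eq_zero_or_pos b with hb0 | hb1
  · have hemp : IsEmpty {i // ¬ p i} := Fintype.card_eq_zero_iff.1 (hb.trans hb0)
    have hq : ∀ x : EuclideanSpace ℝ (Fin n), nuQ (fun i => ¬ p i) x = 0 := by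
      intro x
      unfold nuQ
      refine Finset.sum_eq_zero fun i hi => ?_
      exact (hemp.false ⟨i, (Finset.mem_filter.1 hi).2⟩).elim
    have hset : {x : EuclideanSpace ℝ (Fin n) | β * nuQ p x < α * nuQ (fun i => ¬ p i) x} = ∅ := by
      ext x
      simp only [Set.mem_ofPred_eq, Set.mem_empty_iff_false, iff_false, hq, mul_zero, not_lt]
      exact mul_nonneg hβ.le (nuQ_nonneg p x)
    rw [hset, hb0]
    simp
  · have c1 : Continuous Ψ := hΨ.continuous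
    have c2 : Continuous (deriv Ψ) := hΨ.continuous_deriv le_rfl
    have hSm : MeasurableSet {x : EuclideanSpace ℝ (Fin n) | β * nuQ p x < α * nuQ (fun i => ¬ p i) x} :=
      measurableSet_lt ((nuQ_continuous p).measurable.const_mul β) ((nuQ_continuous _).measurable.const_mul α)
    have hFc : Continuous (fun x : EuclideanSpace ℝ (Fin n) => (a : ℝ) * Ψ (‖x‖ ^ 2) + 2 * deriv Ψ (‖x‖ ^ 2) * nuQ p x) := by
      have c3 := nuQ_continuous p
      fun_prop
    have hFs : HasCompactSupport (fun x : EuclideanSpace ℝ (Fin n) => (a : ℝ) * Ψ (‖x‖ ^ 2) + 2 * deriv Ψ (‖x‖ ^ 2) * nuQ p x) := by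
      obtain ⟨R, hR⟩ := hc.isCompact.isBounded.subset_closedBall 0
      have hz : ∀ y : ℝ, R < y → Ψ y = 0 ∧ deriv Ψ y = 0 := by
        intro y hy
        have hy' : y ∉ tsupport Ψ := by
          intro hmem
          have := hR hmem
          rw [mem_closedBall, Real.dist_eq, sub_zero] at this
          exact absurd ((le_abs_self y).trans this) (not_le.2 hy)
        refine ⟨image_eq_zero_of_notMem_tsupport hy', ?_⟩
        exact image_eq_zero_of_notMem_tsupport fun hmem => hy' (tsupport_deriv_subset hmem)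
      refine HasCompactSupport.intro (isCompact_closedBall (0 : EuclideanSpace ℝ (Fin n)) (|R| + 1)) fun x hx => ?_
      rw [mem_closedBall, dist_zero_right, not_le] at hx
      have h1 : R < ‖x‖ ^ 2 := by
        have := le_abs_self R
        have := abs_nonneg R
        nlinarith
      rw [(hz _ h1).1, (hz _ h1).2]
      simp
    have hFi := (hFc.integrable_of_hasCompactSupport hFs (μ := volume)).indicator hSm
    obtain ⟨G, hGdef⟩ : ∃ G : ℝ → ℝ → ℝ, G = fun r s : ℝ => if β * r ^ 2 < α * s ^ 2 then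
            (a : ℝ) * Ψ (r ^ 2 + s ^ 2) + 2 * deriv Ψ (r ^ 2 + s ^ 2) * r ^ 2 else 0 := ⟨_, rfl⟩
    have hG : {x : EuclideanSpace ℝ (Fin n) | β * nuQ p x < α * nuQ (fun i => ¬ p i) x}.indicator
          (fun x : EuclideanSpace ℝ (Fin n) => (a : ℝ) * Ψ (‖x‖ ^ 2) + 2 * deriv Ψ (‖x‖ ^ 2) * nuQ p x)
        = fun x : EuclideanSpace ℝ (Fin n) => G (√(nuQ p x)) (√(nuQ (fun i => ¬ p i) x)) := by
      funext x
      rw [hGdef]
      simp only [Real.sq_sqrt (nuQ_nonneg p x), Real.sq_sqrt (nuQ_nonneg (fun i => ¬ p i) x), nuQ_add, Set.indicator_apply,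
        Set.mem_ofPred_eq]
    rw [← integral_indicator hSm]
    rw [hG] at hFi ⊢
    rw [nu_birad p ha hb ha1 hb1 G hFi]
    congr 1
    refine setIntegral_congr_fun measurableSet_Ioi fun s hs => ?_
    simp only [hGdef]
    rw [nu_lhs_inner ha1 hα hβ hΨ hs]

/-- **L-NU-B'** change of variables `t = κ s`, `κ = √((α+β)/β)` (`integral_comp_mul_left_Ioi`). -/
theorem nu_lhs_scale {a b : ℕ} (hb1 : 1 ≤ b) {α β : ℝ} (hα : 0 < α) (hβ : 0 < β) (Ψ : ℝ → ℝ) :
    ∫ s in Ioi (0 : ℝ), s ^ (b - 1) * (Ψ ((α + β) / β * s ^ 2) * (√(α / β) * s) ^ a) =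
      √(α / β) ^ a / √((α + β) / β) ^ (a + b) * ∫ t in Ioi (0 : ℝ), Ψ (t ^ 2) * t ^ (a + b - 1) := by
  have hq : 0 < (α + β) / β := by positivity
  obtain ⟨κ, hκ⟩ : ∃ κ : ℝ, κ = √((α + β) / β) := ⟨_, rfl⟩
  have hκ0 : 0 < κ := by rw [hκ]; exact Real.sqrt_pos.2 hq
  have hκ2 : (α + β) / β = κ ^ 2 := by rw [hκ, Real.sq_sqrt hq.le]
  rw [← hκ, hκ2]
  obtain ⟨l, hl⟩ : ∃ l : ℝ, l = √(α / β) := ⟨_, rfl⟩
  rw [← hl]
  have h1 := integral_comp_mul_left_Ioi (fun t : ℝ => Ψ (t ^ 2) * t ^ (a + b - 1)) 0 hκ0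
  rw [mul_zero, smul_eq_mul] at h1
  have h2 : ∀ s : ℝ, s ^ (b - 1) * (Ψ (κ ^ 2 * s ^ 2) * (l * s) ^ a)
      = (l ^ a / κ ^ (a + b - 1)) * (Ψ ((κ * s) ^ 2) * (κ * s) ^ (a + b - 1)) := by
    intro s
    have e1 : a + b - 1 = (b - 1) + a := by omega
    rw [mul_pow κ s 2, mul_pow κ s (a + b - 1), mul_pow l s a]
    have hk : κ ^ (a + b - 1) ≠ 0 := (pow_pos hκ0 _).ne'
    field_simp
    rw [e1, pow_add]
    ring
  simp_rw [h2]
  rw [integral_const_mul, h1]
  have e2 : κ ^ (a + b) = κ ^ (a + b - 1) * κ := by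
    rw [← pow_succ]
    congr 1
    omega
  rw [e2]
  field_simp

end Claimed.Agent.R323
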