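import Claimed.Agent.R323.Nu.Theta

/-!
# Row 323 (S0580), block N (numerics), file 3 (helper187): closed forms of the sphere areas `nuSig` of `Nu/Theta.lean`; `θ_4 ≤ 3/2`.   Prefix `nug_`.   NO SORRY.

EXITS  `nug_W_mul` (`W_j W_{j+1} = 2π/(j+1)`), `nug_sig_add_two` (`σ_{j+2} = 2π/(j+1) σ_j`), `nug_sig_three`, `nug_sig_four`,
`nug_sig_eq_gamma` (`σ_j = 2 π^((j+1)/2) / Γ((j+1)/2)`), `nug_sig_eq_ball` (`σ_j = (j+1) ω_{j+1}` in the shape of `EuclideanSpace.volume_ball`), `nug_sig_eq_volume` (`σ_j = (j+1) vol (unit ball of ℝ^(j+1))`),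
`nug_th_four`, `nug_min_four_le`, `nug_min_le_three_half` (`4 ≤ m → nuMin m ≤ 3/2`), `nug_min_mul_sig_le` (`θ_m σ_k ≤ θ_k σ_k`, `2 ≤ k ≤ m`).
-/

set_option autoImplicit false
open Real

namespace Claimed.Agent.R323

theorem nug_W_mul (j : ℕ) : nuW j * nuW (j + 1) = 2 * π / ((j : ℝ) + 1) := by
  induction j with
  | zero => rw [nuW_zero, nuW_one]; norm_num; ring
  | succ j ih =>
    rw [nuW_add_two]
    have e : nuW (j + 1) * (((j : ℝ) + 1) / ((j : ℝ) + 2) * nuW j) = ((j : ℝ) + 1) / ((j : ℝ) + 2) * (nuW j * nuW (j + 1)) := by ring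
    rw [e, ih]
    push_cast
    field_simp
    ring

theorem nug_sig_add_two (j : ℕ) : nuSig (j + 2) = 2 * π / ((j : ℝ) + 1) * nuSig j := by
  rw [nuSig_succ, nuSig_succ, mul_assoc, nug_W_mul]
  ring

theorem nug_sig_three : nuSig 3 = 2 * π ^ 2 := by
  rw [nug_sig_add_two, nuSig_one]
  norm_num
  ring

theorem nug_sig_four : nuSig 4 = 8 * π ^ 2 / 3 := by
  rw [nug_sig_add_two, nuSig_two]
  norm_num
  ring

/-- the closed form -/
theorem nug_sig_eq_gamma (j : ℕ) : nuSig j = 2 * π ^ (((j : ℝ) + 1) / 2) / Gamma (((j : ℝ) + 1) / 2) := by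
  induction j using Nat.twoStepInduction with
  | zero =>
    rw [nuSig_zero]
    have : ((0 : ℕ) : ℝ) + 1 = 1 := by norm_num
    rw [this, Gamma_one_half_eq, ← sqrt_eq_rpow]
    have : √π ≠ 0 := (sqrt_pos.2 pi_pos).ne'
    field_simp
  | one =>
    rw [nuSig_one]
    have : (((1 : ℕ) : ℝ) + 1) / 2 = 1 := by norm_num
    rw [this, Gamma_one, rpow_one, div_one]
  | more j ih _ =>
    rw [nug_sig_add_two, ih]
    have hs : (((j : ℝ) + 1) / 2) ≠ 0 := by positivity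
    have e : (((j + 2 : ℕ) : ℝ) + 1) / 2 = ((j : ℝ) + 1) / 2 + 1 := by push_cast; ring
    rw [e, Gamma_add_one hs, rpow_add_one pi_pos.ne']
    have hG : Gamma (((j : ℝ) + 1) / 2) ≠ 0 := (Gamma_pos_of_pos (by positivity)).ne'
    field_simp

/-- `σ_j = (j+1) ω_{j+1}`, in the shape of `EuclideanSpace.volume_ball` -/
theorem nug_sig_eq_ball (j : ℕ) : nuSig j = ((j + 1 : ℕ) : ℝ) * (√π ^ (j + 1) / Gamma (((j + 1 : ℕ) : ℝ) / 2 + 1)) := by
  rw [nug_sig_eq_gamma]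
  have hs : (((j + 1 : ℕ) : ℝ) / 2) ≠ 0 := by positivity
  rw [Gamma_add_one hs]
  have e : ((j : ℝ) + 1) / 2 = ((j + 1 : ℕ) : ℝ) / 2 := by push_cast; ring
  rw [e]
  have e2 : π ^ (((j + 1 : ℕ) : ℝ) / 2) = √π ^ (j + 1) := by
    rw [sqrt_eq_rpow, ← rpow_natCast, ← rpow_mul pi_pos.le]
    congr 1
    ring
  rw [e2]
  have hG : Gamma (((j + 1 : ℕ) : ℝ) / 2) ≠ 0 := (Gamma_pos_of_pos (by positivity)).ne'
  have hj : ((j + 1 : ℕ) : ℝ) ≠ 0 := by positivity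
  field_simp

/-- `σ_j = (j+1) vol (B^{j+1})` -/
theorem nug_sig_eq_volume (j : ℕ) :
    ENNReal.ofReal (nuSig j) = ((j + 1 : ℕ) : ENNReal) * MeasureTheory.volume (Metric.ball (0 : EuclideanSpace ℝ (Fin (j + 1))) 1) := by
  rw [EuclideanSpace.volume_ball, nug_sig_eq_ball, ENNReal.ofReal_mul (by positivity), ENNReal.ofReal_natCast]
  simp

theorem nug_th_four : nuTh 4 2 = 3 / 2 := by
  have h4 : nuP 4 = 16 := by
    rw [nuP_eq_sqrt]
    rw [show (((4 : ℕ) : ℝ)) ^ 4 = 16 ^ 2 by norm_num]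
    exact sqrt_sq (by norm_num)
  unfold nuTh
  rw [show 4 - 2 = 2 from rfl, nuSig_two, nug_sig_four, nuP_two, h4]
  have := pi_pos.ne'
  field_simp
  ring

theorem nug_min_four_le : nuMin 4 ≤ 3 / 2 := by
  rw [← nug_th_four]
  exact nuMin_le (by norm_num) (by norm_num)

theorem nug_min_le_three_half {m : ℕ} (hm : 4 ≤ m) : nuMin m ≤ 3 / 2 :=
  (nu_min_anti (by norm_num) hm).trans nug_min_four_le

/-- the form used in the induction on cones -/
theorem nug_min_mul_sig_le {k m : ℕ} (hk : 2 ≤ k) (hkm : k ≤ m) : nuMin m * nuSig k ≤ nuMin k * nuSig k :=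
  mul_le_mul_of_nonneg_right (nu_min_anti hk hkm) (nuSig_pos k).le

end Claimed.Agent.R323
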