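import Claimed.Agent.R323.Nu.Wallis

/-!
# Row 323 (S0580), block N (numerics; helper59), file 2: the ratios `θ(m,k)` of the Clifford volumes

`nuSig j` = area of the unit sphere `S^j ⊆ ℝ^(j+1)` (`nuSig 0 = 2`, `nuSig (j+1) = nuSig j * nuW j`); `nuP j = j^(j/2)` (`nuP_sq`, `nuP_eq_sqrt`);
`nuTh m k = σ_k σ_{m-k} k^{k/2} (m-k)^{(m-k)/2} / (σ_m m^{m/2})` (`nuTh_eq`: `= σ_k σ_{m-k} √((k/m)^k) √(((m-k)/m)^(m-k)) / σ_m`);   `nuMin m = min_{1 ≤ k ≤ m-1} nuTh m k`.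

EXITS  `nu_th_succ_le`, `nu_th_le_of_le` (`k < m ≤ m' → nuTh m' k ≤ nuTh m k`), `nu_th_symm`, `nu_th_two`, `nuMin_le`, `nuMin_mem`, `nu_min_anti`, `nu_min_two`, `nu_min_le`, `nu_min_lt_two`, `nuMin_pos`.
-/

set_option autoImplicit false
open Real Set Filter Topology

namespace Claimed.Agent.R323

/-- the area of the unit sphere `S^j`. -/
noncomputable def nuSig : ℕ → ℝ
  | 0 => 2
  | j + 1 => nuSig j * nuW j

theorem nuSig_zero : nuSig 0 = 2 := rfl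

theorem nuSig_succ (j : ℕ) : nuSig (j + 1) = nuSig j * nuW j := rfl

theorem nuSig_pos (j : ℕ) : 0 < nuSig j := by
  induction j with
  | zero => norm_num [nuSig]
  | succ j ih => exact mul_pos ih (nuW_pos j)

theorem nuSig_one : nuSig 1 = 2 * π := by rw [nuSig_succ, nuSig_zero, nuW_zero]

theorem nuSig_two : nuSig 2 = 4 * π := by
  rw [nuSig_succ, nuSig_one, nuW_one]
  ring

/-- `j^(j/2)`. -/
noncomputable def nuP (j : ℕ) : ℝ := exp (nuH j / 2)

theorem nuP_pos (j : ℕ) : 0 < nuP j := exp_pos _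

theorem nuP_zero : nuP 0 = 1 := by simp [nuP, nuH]

theorem nuP_one : nuP 1 = 1 := by simp [nuP, nuH]

theorem nuP_sq (j : ℕ) : nuP j ^ 2 = (j : ℝ) ^ j := by
  rcases Nat.eq_zero_or_pos j with rfl | hj
  · simp [nuP_zero]
  · have hj' : (0 : ℝ) < j := by exact_mod_cast hj
    unfold nuP nuH
    rw [← exp_nat_mul]
    have e : ((2 : ℕ) : ℝ) * ((j : ℝ) * log j / 2) = (j : ℝ) * log j := by
      push_cast
      ring
    rw [e, exp_nat_mul, exp_log hj']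

theorem nuP_eq_sqrt (j : ℕ) : nuP j = sqrt ((j : ℝ) ^ j) := by
  rw [← nuP_sq, sqrt_sq (nuP_pos j).le]

theorem nuP_two : nuP 2 = 2 := by
  rw [nuP_eq_sqrt]
  have : ((2 : ℕ) : ℝ) ^ 2 = 2 ^ 2 := by norm_num
  rw [this, sqrt_sq (by norm_num)]

/-- `φ = exp ∘ nuL`. -/
theorem nu_exp_nuL (j : ℕ) : exp (nuL j) = nuW j * nuP (j + 1) / nuP j := by
  unfold nuL nuP
  push_cast
  rw [exp_add, exp_log (nuW_pos j), sub_div, exp_sub]
  ring

theorem nu_phi_mono {i j : ℕ} (hi : 1 ≤ i) (hij : i ≤ j) :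
    nuW i * nuP (i + 1) / nuP i ≤ nuW j * nuP (j + 1) / nuP j := by
  rw [← nu_exp_nuL, ← nu_exp_nuL]
  exact exp_le_exp.2 (nuL_mono hi hij)

/-- the ratio (volume of the Clifford product `S^k(√(k/m)) × S^(m-k)(√((m-k)/m))`) / (volume of `S^m`). -/
noncomputable def nuTh (m k : ℕ) : ℝ :=
  nuSig k * nuSig (m - k) * nuP k * nuP (m - k) / (nuSig m * nuP m)

theorem nuTh_pos (m k : ℕ) : 0 < nuTh m k :=
  div_pos (mul_pos (mul_pos (mul_pos (nuSig_pos _) (nuSig_pos _)) (nuP_pos _)) (nuP_pos _))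
    (mul_pos (nuSig_pos _) (nuP_pos _))

theorem nu_th_symm {m k : ℕ} (hk : k ≤ m) : nuTh m (m - k) = nuTh m k := by
  unfold nuTh
  rw [Nat.sub_sub_self hk]
  ring

/-- the geometric form of `nuTh`. -/
theorem nuTh_eq {m k : ℕ} (hk : k ≤ m) (hm : 0 < m) :
    nuTh m k = nuSig k * nuSig (m - k) * sqrt (((k : ℝ) / m) ^ k) *
      sqrt ((((m - k : ℕ) : ℝ) / m) ^ (m - k)) / nuSig m := by
  have hm' : (0 : ℝ) < m := by exact_mod_cast hm
  have h1 : sqrt (((k : ℝ) / m) ^ k) * sqrt ((((m - k : ℕ) : ℝ) / m) ^ (m - k)) =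
      nuP k * nuP (m - k) / nuP m := by
    rw [nuP_eq_sqrt k, nuP_eq_sqrt (m - k), nuP_eq_sqrt m, ← sqrt_mul (by positivity),
      ← sqrt_mul (by positivity), ← sqrt_div (by positivity)]
    congr 1
    rw [div_pow, div_pow, div_mul_div_comm, ← pow_add, Nat.add_sub_cancel' hk]
  unfold nuTh
  rw [mul_assoc (nuSig k * nuSig (m - k)) (sqrt _), h1]
  have := (nuSig_pos m).ne'
  have := (nuP_pos m).ne'
  field_simp

/-- **the ratio decreases with the dimension** (`k` fixed). -/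
theorem nu_th_succ_le {m k : ℕ} (hk : k < m) : nuTh (m + 1) k ≤ nuTh m k := by
  obtain ⟨i, hi, rfl⟩ : ∃ i, 1 ≤ i ∧ m = k + i := ⟨m - k, by omega, by omega⟩
  have e1 : k + i + 1 - k = i + 1 := by omega
  have e2 : k + i - k = i := by omega
  unfold nuTh
  rw [e1, e2, nuSig_succ, nuSig_succ]
  have key := nu_phi_mono hi (show i ≤ k + i by omega)
  have p1 := nuP_pos i
  have p2 := nuP_pos (k + i)
  have p3 := nuP_pos (k + i + 1)
  have p4 := nuP_pos k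
  have s1 := nuSig_pos k
  have s2 := nuSig_pos i
  have s3 := nuSig_pos (k + i)
  have w1 := nuW_pos (k + i)
  rw [div_le_div_iff₀ p1 p2] at key
  rw [div_le_div_iff₀ (by positivity) (by positivity)]
  have h2 : 0 ≤ nuSig k * nuSig i * nuP k * nuSig (k + i) := by positivity
  nlinarith [mul_le_mul_of_nonneg_left key h2]

theorem nu_th_le_of_le {m m' k : ℕ} (hk : k < m) (hmm' : m ≤ m') : nuTh m' k ≤ nuTh m k := by
  induction m', hmm' using Nat.le_induction with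
  | base => exact le_rfl
  | succ j hj ih => exact (nu_th_succ_le (hk.trans_le hj)).trans ih

theorem nu_th_two : nuTh 2 1 = π / 2 := by
  unfold nuTh
  rw [show 2 - 1 = 1 from rfl, nuSig_one, nuSig_two, nuP_one, nuP_two]
  field_simp
  ring

/-- the least ratio. -/
noncomputable def nuMin (m : ℕ) : ℝ := sInf (nuTh m '' Set.Icc 1 (m - 1))

theorem nuMin_le {m k : ℕ} (hk1 : 1 ≤ k) (hk : k < m) : nuMin m ≤ nuTh m k :=
  csInf_le ⟨0, by rintro _ ⟨j, -, rfl⟩; exact (nuTh_pos m j).le⟩ ⟨k, ⟨hk1, by omega⟩, rfl⟩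

theorem nuMin_mem {m : ℕ} (hm : 2 ≤ m) : ∃ k, 1 ≤ k ∧ k < m ∧ nuMin m = nuTh m k := by
  have h1 : (nuTh m '' Set.Icc 1 (m - 1)).Nonempty := ⟨_, 1, ⟨le_rfl, by omega⟩, rfl⟩
  have h2 : (nuTh m '' Set.Icc 1 (m - 1)).Finite := (Set.finite_Icc 1 (m - 1)).image _
  obtain ⟨k, hk, he⟩ := h1.csInf_mem h2
  exact ⟨k, hk.1, by have := hk.2; omega, he.symm⟩

theorem nuMin_pos {m : ℕ} (hm : 2 ≤ m) : 0 < nuMin m := by
  obtain ⟨k, -, -, he⟩ := nuMin_mem hm
  rw [he]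
  exact nuTh_pos m k

/-- **`θ_m` is nonincreasing.** -/
theorem nu_min_anti {m m' : ℕ} (hm : 2 ≤ m) (hmm' : m ≤ m') : nuMin m' ≤ nuMin m := by
  obtain ⟨k, hk1, hk, he⟩ := nuMin_mem hm
  rw [he]
  exact (nuMin_le hk1 (hk.trans_le hmm')).trans (nu_th_le_of_le hk hmm')

theorem nu_min_two : nuMin 2 = π / 2 := by
  obtain ⟨k, hk1, hk, he⟩ := nuMin_mem (le_refl 2)
  have : k = 1 := by omega
  rw [he, this, nu_th_two]

theorem nu_min_le {m : ℕ} (hm : 2 ≤ m) : nuMin m ≤ π / 2 := by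
  rw [← nu_min_two]
  exact nu_min_anti le_rfl hm

theorem nu_min_lt_two {m : ℕ} (hm : 2 ≤ m) : nuMin m < 2 := by
  have := nu_min_le hm
  have := pi_lt_four
  linarith

end Claimed.Agent.R323
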