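import Mathlib

/-!
# Row 323 (S0580), block N (numerics; helper59), file 1: Wallis integrals and the ratios of the Clifford volumes

`nuW j = ∫₀^π sin^j`, `nuSig j` = area of the unit sphere `S^j` (`nuSig 0 = 2`, `nuSig (j+1) = nuSig j * nuW j`), `nuP j = j^(j/2)`,
`nuTh m k = σ_k σ_{m-k} (k/m)^{k/2} ((m-k)/m)^{(m-k)/2} / σ_m` = (volume of the Clifford product `S^k(√(k/m)) × S^{m-k}(√((m-k)/m))`) / (volume of the equator `S^m`).

MAIN RESULTS  `nu_th_succ_le : 1 ≤ k → k < m → nuTh (m+1) k ≤ nuTh m k`, `nu_th_symm`, `nu_th_two : nuTh 2 1 = π/2`, `nuMin` (minimum over `k`), `nu_min_anti`, `nu_min_lt_two`.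

PROOF.  `nuTh (m+1) k / nuTh m k = φ(m-k)/φ(m)` with `φ j = W_j P(j+1)/P(j)`.  `L j = log φ j`, `Δ j = L (j+1) - L j`.  Two step recursion of Wallis: `L (j+2) - L j = G j / 2`, `G` an explicit
function with `G' = log (1 - y) + y ≤ 0`, `y = 2/((x+1)(x+2))`.  Hence `Δ (j+2) ≤ Δ j`; and `Δ i ≥ - 1/i`.  So `Δ j ≥ 0`.
-/

set_option autoImplicit false
open Real Set Filter Topology

namespace Claimed.Agent.R323

/-- Wallis integrals. -/
noncomputable def nuW (j : ℕ) : ℝ := ∫ x in (0 : ℝ)..π, sin x ^ j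

theorem nuW_zero : nuW 0 = π := by simp [nuW]

theorem nuW_one : nuW 1 = 2 := by
  simp only [nuW, pow_one, integral_sin, cos_zero, cos_pi]
  norm_num

theorem nuW_add_two (j : ℕ) : nuW (j + 2) = ((j : ℝ) + 1) / ((j : ℝ) + 2) * nuW j := by
  unfold nuW
  rw [integral_sin_pow]
  simp

theorem nuW_pos (j : ℕ) : 0 < nuW j := integral_sin_pow_pos j

theorem nuW_succ_le (j : ℕ) : nuW (j + 1) ≤ nuW j := integral_sin_pow_succ_le j

/-- `x log x`. -/
noncomputable def nuH (x : ℝ) : ℝ := x * log x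

/-- the logarithm of `(φ(x+2)/φ(x))²`. -/
noncomputable def nuG (x : ℝ) : ℝ :=
  nuH (x + 3) + nuH x - nuH (x + 2) - nuH (x + 1) - 2 * log (x + 2) + 2 * log (x + 1)

theorem nuH_hasDerivAt {x : ℝ} (c : ℝ) (hx : x + c ≠ 0) :
    HasDerivAt (fun x => nuH (x + c)) (log (x + c) + 1) x := by
  have h1 := Real.hasDerivAt_mul_log hx
  have h2 : HasDerivAt (fun x : ℝ => x + c) 1 x := (hasDerivAt_id x).add_const c
  have h3 := h1.comp x h2
  simpa [nuH, Function.comp_def] using h3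

theorem nuG_hasDerivAt {x : ℝ} (hx : 0 < x) :
    HasDerivAt nuG (log (x + 3) + log x - log (x + 2) - log (x + 1) - 2 / (x + 2) + 2 / (x + 1)) x := by
  have h3 := nuH_hasDerivAt (x := x) 3 (by positivity)
  have h0 := nuH_hasDerivAt (x := x) 0 (by simpa using hx.ne')
  have h2 := nuH_hasDerivAt (x := x) 2 (by positivity)
  have h1 := nuH_hasDerivAt (x := x) 1 (by positivity)
  have l2 : HasDerivAt (fun x : ℝ => log (x + 2)) (1 / (x + 2)) x := by
    have := (Real.hasDerivAt_log (x := x + 2) (by positivity)).comp x ((hasDerivAt_id x).add_const 2)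
    simpa [Function.comp_def] using this
  have l1 : HasDerivAt (fun x : ℝ => log (x + 1)) (1 / (x + 1)) x := by
    have := (Real.hasDerivAt_log (x := x + 1) (by positivity)).comp x ((hasDerivAt_id x).add_const 1)
    simpa [Function.comp_def] using this
  have key := ((((h3.add h0).sub h2).sub h1).sub (l2.const_mul 2)).add (l1.const_mul 2)
  simp only [add_zero] at key
  have e : nuG = fun x => nuH (x + 3) + nuH x - nuH (x + 2) - nuH (x + 1) - 2 * log (x + 2) +
      2 * log (x + 1) := rfl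
  rw [e]
  refine HasDerivAt.congr_deriv (f := fun x => nuH (x + 3) + nuH x - nuH (x + 2) - nuH (x + 1) -
    2 * log (x + 2) + 2 * log (x + 1)) key ?_
  ring

theorem nuG_deriv_nonpos {x : ℝ} (hx : 0 < x) :
    log (x + 3) + log x - log (x + 2) - log (x + 1) - 2 / (x + 2) + 2 / (x + 1) ≤ 0 := by
  have h1 : log (x + 3) + log x - log (x + 2) - log (x + 1) =
      log ((x + 3) * x / ((x + 2) * (x + 1))) := by
    rw [log_div (by positivity) (by positivity), log_mul (by positivity) hx.ne',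
      log_mul (by positivity) (by positivity)]
    ring
  have h2 : log ((x + 3) * x / ((x + 2) * (x + 1))) ≤ (x + 3) * x / ((x + 2) * (x + 1)) - 1 :=
    log_le_sub_one_of_pos (by positivity)
  have h3 : (x + 3) * x / ((x + 2) * (x + 1)) - 1 - 2 / (x + 2) + 2 / (x + 1) = 0 := by
    field_simp
    ring
  linarith

theorem nuG_antitoneOn : AntitoneOn nuG (Ioi 0) := by
  refine antitoneOn_of_deriv_nonpos (convex_Ioi 0) ?_ ?_ ?_
  · exact fun x hx => (nuG_hasDerivAt hx).continuousAt.continuousWithinAt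
  · rw [interior_Ioi]
    exact fun x hx => (nuG_hasDerivAt hx).differentiableAt.differentiableWithinAt
  · rw [interior_Ioi]
    intro x hx
    rw [(nuG_hasDerivAt hx).deriv]
    exact nuG_deriv_nonpos hx

/-- `log φ`. -/
noncomputable def nuL (j : ℕ) : ℝ := log (nuW j) + (nuH ((j : ℝ) + 1) - nuH j) / 2

theorem nuL_add_two (j : ℕ) : nuL (j + 2) - nuL j = nuG j / 2 := by
  unfold nuL nuG
  rw [nuW_add_two, log_mul (by positivity) (nuW_pos j).ne', log_div (by positivity) (by positivity)]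
  push_cast
  have e1 : (j : ℝ) + 2 + 1 = j + 3 := by ring
  rw [e1]
  ring

theorem nuL_diff_anti (j : ℕ) (hj : 1 ≤ j) :
    nuL (j + 3) - nuL (j + 2) ≤ nuL (j + 1) - nuL j := by
  have h1 := nuL_add_two j
  have h2 := nuL_add_two (j + 1)
  have h3 : nuG ((j + 1 : ℕ) : ℝ) ≤ nuG (j : ℝ) := by
    refine nuG_antitoneOn ?_ ?_ ?_
    · show (0 : ℝ) < j
      exact_mod_cast hj
    · show (0 : ℝ) < ((j + 1 : ℕ) : ℝ)
      positivity
    · push_cast
      linarith
  have e : j + 1 + 2 = j + 3 := rfl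
  rw [e] at h2
  linarith

theorem nuL_diff_ge (i : ℕ) (hi : 1 ≤ i) : -(1 / (i : ℝ)) ≤ nuL (i + 1) - nuL i := by
  obtain ⟨j, rfl⟩ : ∃ j, i = j + 1 := ⟨i - 1, by omega⟩
  have hW : ((j : ℝ) + 1) / ((j : ℝ) + 2) * nuW (j + 1) ≤ nuW (j + 2) := by
    rw [nuW_add_two]
    exact mul_le_mul_of_nonneg_left (nuW_succ_le j) (by positivity)
  have h1 : log (((j : ℝ) + 1) / ((j : ℝ) + 2)) + log (nuW (j + 1)) ≤ log (nuW (j + 2)) := by
    rw [← log_mul (by positivity) (nuW_pos _).ne']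
    exact log_le_log (mul_pos (by positivity) (nuW_pos _)) hW
  have h2 : -(1 / ((j : ℝ) + 1)) ≤ log (((j : ℝ) + 1) / ((j : ℝ) + 2)) := by
    have h3 : log (((j : ℝ) + 2) / ((j : ℝ) + 1)) ≤ ((j : ℝ) + 2) / ((j : ℝ) + 1) - 1 :=
      log_le_sub_one_of_pos (by positivity)
    have h4 : log (((j : ℝ) + 1) / ((j : ℝ) + 2)) = -log (((j : ℝ) + 2) / ((j : ℝ) + 1)) := by
      rw [← log_inv, inv_div]
    have h5 : ((j : ℝ) + 2) / ((j : ℝ) + 1) - 1 = 1 / ((j : ℝ) + 1) := by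
      field_simp
      ring
    rw [h4]
    linarith
  -- convexity of `x log x`
  have h6 : 2 * nuH ((j : ℝ) + 2) ≤ nuH ((j : ℝ) + 1) + nuH ((j : ℝ) + 3) := by
    have hj1 : (j : ℝ) + 1 ∈ Ici (0 : ℝ) := by show (0 : ℝ) ≤ _; positivity
    have hj3 : (j : ℝ) + 3 ∈ Ici (0 : ℝ) := by show (0 : ℝ) ≤ _; positivity
    have hc := (Real.convexOn_mul_log).2 hj1 hj3 (show (0 : ℝ) ≤ 1 / 2 by norm_num)
      (show (0 : ℝ) ≤ 1 / 2 by norm_num) (by norm_num)
    simp only [smul_eq_mul] at hc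
    have e : 1 / 2 * ((j : ℝ) + 1) + 1 / 2 * ((j : ℝ) + 3) = (j : ℝ) + 2 := by ring
    rw [e] at hc
    unfold nuH
    linarith
  unfold nuL
  push_cast
  have e1 : (j : ℝ) + 1 + 1 = j + 2 := by ring
  have e2 : (j : ℝ) + 1 + 1 + 1 = j + 3 := by ring
  have e3 : (j : ℝ) + 2 + 1 = j + 3 := by ring
  simp only [e1, e3]
  linarith

theorem nuL_diff_ge_iter (j : ℕ) (hj : 1 ≤ j) (n : ℕ) :
    nuL (j + 2 * n + 1) - nuL (j + 2 * n) ≤ nuL (j + 1) - nuL j := by
  induction n with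
  | zero => simp
  | succ n ih =>
    have := nuL_diff_anti (j + 2 * n) (by omega)
    have e1 : j + 2 * (n + 1) + 1 = j + 2 * n + 3 := by ring
    have e2 : j + 2 * (n + 1) = j + 2 * n + 2 := by ring
    rw [e1, e2]
    linarith

/-- **`φ` is nondecreasing.** -/
theorem nuL_le_succ (j : ℕ) (hj : 1 ≤ j) : nuL j ≤ nuL (j + 1) := by
  have h1 : ∀ n : ℕ, -(1 / ((j + 2 * n : ℕ) : ℝ)) ≤ nuL (j + 1) - nuL j := fun n =>
    (nuL_diff_ge (j + 2 * n) (by omega)).trans (nuL_diff_ge_iter j hj n)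
  have h2 : Tendsto (fun n : ℕ => -(1 / ((j + 2 * n : ℕ) : ℝ))) atTop (𝓝 0) := by
    have h3 : Tendsto (fun n : ℕ => j + 2 * n) atTop atTop :=
      tendsto_atTop_mono (fun n => by show n ≤ j + 2 * n; omega) tendsto_id
    have h4 : Tendsto (fun n : ℕ => 1 / ((n : ℕ) : ℝ)) atTop (𝓝 0) := tendsto_one_div_atTop_nhds_zero_nat
    have h5 := (h4.comp h3).neg
    simpa [Function.comp_def] using h5
  have h6 : 0 ≤ nuL (j + 1) - nuL j := le_of_tendsto' h2 h1
  linarith

theorem nuL_mono {i j : ℕ} (hi : 1 ≤ i) (hij : i ≤ j) : nuL i ≤ nuL j := by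
  induction j, hij using Nat.le_induction with
  | base => exact le_rfl
  | succ j hj ih => exact ih.trans (nuL_le_succ j (hi.trans hj))

end Claimed.Agent.R323
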